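import Crest.Agent.N265.V.Jet
import Crest.Agent.N265.Jac.Fib

/-! # Row 265, layer V, task V6: fixed loci are smooth; partial fractions -/

set_option autoImplicit false
noncomputable section
open MvPolynomial Module

namespace Crest.Agent.N265.V
open GM Bun
variable {W X Y : Spc}

/-- the moving variables -/
def mov (V : Finset Var) (w : ℕ → ℤ) : Finset Var := V.filter fun v => v.2.2 ≠ w v.1
lemma mem_mov {V : Finset Var} {w : ℕ → ℤ} {v : Var} : v ∈ mov V w ↔ v ∈ V ∧ v.2.2 ≠ w v.1 :=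
  Finset.mem_filter
/-- the moving coordinates -/
def ymov (V : Finset Var) (w : ℕ → ℤ) : mov V w → R := fun v => MvPolynomial.X v.1
lemma mem_fix {w : ℕ → ℤ} {x : Pt} :
    x ∈ (W.fix w).pts ↔ x ∈ W.pts ∧ ∀ v : Var, x v ≠ 0 → v.2.2 = w v.1 := by
  constructor
  · rintro ⟨h1, h2⟩
    exact ⟨h1, fun v hv => by_contra fun hn => hv (by simpa using h2 _ ⟨v, hn, rfl⟩)⟩
  · rintro ⟨h1, h2⟩
    refine ⟨h1, ?_⟩
    rintro _ ⟨v, hn, rfl⟩
    rw [eval_X]
    exact by_contra fun hv => hn (h2 v hv)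
lemma fix_sub (W : Spc) (w : ℕ → ℤ) : (W.fix w).Sub W := W.cut_sub _ _
lemma tan_inf_ker {V : Finset Var} (hV : W.Vars V) (w : ℕ → ℤ) (x : Pt) :
    W.Tan x ⊓ LinearMap.ker (dS x (ymov V w)) = W.Tan x ⊓ fixS w := by
  ext ξ
  rw [Submodule.mem_inf, Submodule.mem_inf, mem_ker_dS, mem_fixS]
  refine and_congr_right fun hξ => ⟨fun h v hv => ?_, fun h v => ?_⟩
  · by_cases hv' : v ∈ V
    · simpa [ymov] using h ⟨v, mem_mov.2 ⟨hv', hv⟩⟩
    · simpa using hξ (MvPolynomial.X v) fun y hy => by rw [eval_X]; exact hV.2 y hy v hv'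
  · simpa [ymov] using h v.1 (mem_mov.1 v.2).2

/-- the one-parameter subgroup fixing the points of block weights `w` -/
lemma exists_char (w : ℕ → ℤ) : ∃ τ : D → ℂ, Jac.IsChar τ ∧
    ∀ v : Var, τ (vdeg v) = 2 ^ (v.2.2 - w v.1) := by
  let ℓ : D →+ ℤ := Finsupp.liftAddHom fun i => AddMonoidHom.mulLeft (i.elim 1 fun b => -w b)
  refine ⟨fun d => 2 ^ ℓ d, ⟨by simp, fun d e => by rw [map_add, zpow_add₀ two_ne_zero]⟩,
    fun v => ?_⟩
  have : ℓ (vdeg v) = v.2.2 - w v.1 := by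
    rw [vdeg, map_add, map_zsmul, eB, eT, Finsupp.liftAddHom_apply_single,
      Finsupp.liftAddHom_apply_single]
    simp
    ring
  simp only [this]

/-- near a smooth fixed point the moving coordinates are generated by those with independent
differentials -/
lemma exists_fix_eqs {V : Finset Var} (hV : W.Vars V) (w : ℕ → ℤ) {z : Pt}
    (hz : z ∈ (W.fix w).pts) {κ : Type} (a : κ → mov V w)
    (ha : ∀ v : mov V w, ∃ co : κ →₀ ℂ, ∀ ξ ∈ W.Tan z, ξ v = co.sum fun j c => c * ξ (a j)) :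
    ∃ r, eval z r ≠ 0 ∧ ∀ v : mov V w, r * ymov V w v ∈ W.I ⊔ sI fun j => ymov V w (a j) := by
  obtain ⟨τ, hτ, hτ'⟩ := exists_char w
  obtain ⟨hzW, hz'⟩ := mem_fix.1 hz
  set α := Jac.scal fun v => τ (vdeg v) with hα
  have hz0 : ∀ v : mov V w, z v = 0 := fun v => by_contra fun h => (mem_mov.1 v.2).2 (hz' v h)
  have hαz : ∀ r, eval z (α r) = eval z r := fun r => by
    rw [hα, Jac.eval_scal]
    congr 2
    funext v
    by_cases h : z v = 0
    · simp [h]
    · simp [hτ', hz' v h]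
  have h1 : ∀ r, α r - r ∈ W.I ⊔ sI (ymov V w) := fun r => by
    induction r using MvPolynomial.induction_on with
    | C c => simp [hα]
    | add p q hp hq =>
      convert add_mem hp hq using 1
      rw [map_add]; ring
    | mul_X p v hp =>
      have h2 : α (MvPolynomial.X v) - MvPolynomial.X v ∈ W.I ⊔ sI (ymov V w) := by
        rw [hα, Jac.scal_X, hτ']
        by_cases hv : v.2.2 = w v.1
        · simp [hv]
        · rw [← sub_one_mul]
          refine Ideal.mul_mem_left _ _ ?_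
          by_cases hv' : v ∈ V
          · exact Ideal.mem_sup_right (mem_sI (ymov V w) ⟨v, mem_mov.2 ⟨hv', hv⟩⟩)
          · exact Ideal.mem_sup_left fun y hy => by rw [eval_X]; exact hV.2 y hy v hv'
      convert add_mem (Ideal.mul_mem_right (α (MvPolynomial.X v)) _ hp)
        (Ideal.mul_mem_left _ p h2) using 1
      rw [map_mul]; ring
  have h2 : ∀ q ∈ W.I ⊔ mx z ^ 2, α q - q ∈ W.I ⊔ mx z • sI (ymov V w) := by
    intro q' hq'
    obtain ⟨i, hi, q, hq, rfl⟩ := Submodule.mem_sup.1 hq'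
    clear hq'
    have h3 : mx z * (W.I ⊔ sI (ymov V w)) ≤ W.I ⊔ mx z • sI (ymov V w) := by
      rw [Ideal.mul_sup]
      exact sup_le_sup Ideal.mul_le_right le_rfl
    have h4 : α q - q ∈ mx z * (W.I ⊔ sI (ymov V w)) := by
      rw [pow_two] at hq
      refine Submodule.mul_induction_on hq (fun b hb c hc => ?_) fun b c hb hc => ?_
      · have hb' : α b ∈ mx z := by rw [mem_mx, hαz]; exact hb
        convert add_mem (Ideal.mul_mem_mul hb' (h1 c)) (Ideal.mul_mem_mul hc (h1 b)) using 1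
        rw [map_mul]; ring
      · convert add_mem hb hc using 1
        rw [map_add]; ring
    convert add_mem (Ideal.mem_sup_left (sub_mem (Jac.stab_torus (Jac.stabI_I W) hτ hi) hi))
      (h3 h4) using 1
    rw [map_add]; ring
  have h5 : sI (ymov V w) ≤ (W.I ⊔ sI fun j => ymov V w (a j)) ⊔ mx z • sI (ymov V w) := by
    rw [sI, Ideal.span_le]
    rintro _ ⟨v, rfl⟩
    obtain ⟨co, hco⟩ := ha v
    have hl : ∀ f : κ → ℂ, (co.sum fun j c => C (f j * c) * ymov V w (a j)) ∈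
        sI fun j => ymov V w (a j) := fun f =>
      Ideal.sum_mem _ fun j _ => Ideal.mul_mem_left _ _ (mem_sI (fun j => ymov V w (a j)) j)
    have hq := h2 _ (Jac.mem_sup_sq_of_dAt (Jac.finJ_I W) (Jac.I_le_mx hzW)
      (r := ymov V w v - co.sum fun j c => C c * ymov V w (a j)) (by
        simp [mem_mx, ymov, Finsupp.sum, hz0]) fun ξ hξ => by
        rw [Jac.dAt_sub, Finsupp.sum, Jac.dAt_sum]
        simp only [Jac.dAt_C_mul, ymov, dAt_X]
        rw [hco ξ hξ, Finsupp.sum, sub_self])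
    have hc : τ (vdeg v) - 1 ≠ 0 := by
      rw [hτ', sub_ne_zero]
      intro h
      have h' : (2 : ℝ) ^ (v.1.2.2 - w v.1.1) = 1 := by
        apply Complex.ofReal_injective
        push_cast
        exact h
      rw [zpow_eq_one_iff_right₀ (by norm_num) (by norm_num), sub_eq_zero] at h'
      exact (mem_mov.1 v.2).2 h'
    have h6 : C (τ (vdeg v) - 1) * ymov V w v ∈
        (W.I ⊔ sI fun j => ymov V w (a j)) ⊔ mx z • sI (ymov V w) := by
      have h7 := add_mem ((sup_le_sup_right (le_sup_left (b := sI fun j => ymov V w (a j))) _) hq)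
        (Ideal.mem_sup_left (Ideal.mem_sup_right (hl fun j => τ (vdeg (a j)) - 1)))
      convert h7 using 1
      simp only [map_sub, Finsupp.sum, map_sum, map_mul, ymov, hα, Jac.scal_X, Jac.scal_C, map_one,
        sub_mul, one_mul, Finset.sum_sub_distrib, mul_left_comm, mul_assoc]
      ring
    have h8 := Ideal.mul_mem_left _ (C (τ (vdeg v) - 1)⁻¹) h6
    rwa [← mul_assoc, ← map_mul, inv_mul_cancel₀ hc, map_one, one_mul] at h8
  obtain ⟨r, hr, h9⟩ := Submodule.exists_sub_one_mem_and_smul_le_of_fg_of_le_sup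
    (Submodule.fg_span (Set.finite_range (ymov V w))) le_rfl h5
  refine ⟨r, fun h => ?_, fun v => h9 (Submodule.smul_mem_pointwise_smul _ r _ (mem_sI _ v))⟩
  rw [mem_mx, map_sub, h, map_one] at hr
  simp at hr
/-- The fixed locus is cut out by `c = rank` of the moving coordinates. Let `α = aeval (X v ↦
2^(wt v - w b) X v)`; it preserves `W.I` (`exists_tor`, `Spc.tpt_mem`), `α a - a ∈ 𝔟 = (X v, v moving)`
for all `a`, so `α q - q ∈ 𝔪_x 𝔟` for `q ∈ 𝔪_x²`. Choose moving variables `y_1..y_c` whose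
differentials are a basis of the span of all `dX_v|T_xW`, `v` moving. Then
`q = X v - ∑ a_j y_j ∈ W.I + 𝔪_x²` (`Jac.mem_sup_sq_of_dAt`), `α q - q` gives
`X v ∈ (y) + W.I + 𝔪_x 𝔟`; Nakayama; `Jac.ldim_le_add`. -/
theorem reg_fix {V : Finset Var} (hV : W.Vars V) (w : ℕ → ℤ)
    (hs : ∀ z ∈ (W.fix w).pts, W.SmAt z) : Reg W (W.fix w) (ymov V w) := by
  refine ⟨fix_sub W w, fun x hx => ?_, hs, fun z hz => ?_⟩
  · rw [mem_fix]
    refine ⟨fun h v => ?_, fun h => ⟨hx, fun v hv => by_contra fun hn => hv ?_⟩⟩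
    · rw [ymov, eval_X]
      exact by_contra fun h0 => (mem_mov.1 v.2).2 (h.2 v h0)
    · by_cases hv' : v ∈ V
      · simpa [ymov] using h ⟨v, mem_mov.2 ⟨hv', hn⟩⟩
      · exact hV.2 x hx v hv'
  · have hzW := (mem_fix.1 hz).1
    let φ : mov V w → Module.Dual ℂ (W.Tan z) := fun v => LinearMap.proj v.1 ∘ₗ (W.Tan z).subtype
    obtain ⟨κ, a, hinj, hsp, hli⟩ := exists_linearIndependent' ℂ φ
    have : Finite κ := Finite.of_injective a hinj
    have : Fintype κ := Fintype.ofFinite κ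
    obtain ⟨r, hr, h1⟩ := exists_fix_eqs hV w hz a fun v => by
      have h2 : φ v ∈ Submodule.span ℂ (Set.range (φ ∘ a)) := hsp ▸ Submodule.subset_span ⟨v, rfl⟩
      obtain ⟨co, hco⟩ := Finsupp.mem_span_range_iff_exists_finsupp.1 h2
      refine ⟨co, fun ξ hξ => ?_⟩
      have := LinearMap.congr_fun hco ⟨ξ, hξ⟩
      rw [Finsupp.sum, LinearMap.sum_apply] at this
      exact this.symm
    have h3 := Spc.ldim_le_add (fix_sub W w) hz (fun j => ymov V w (a j)) hr fun y hy hry => by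
      rw [mem_fix]
      refine ⟨fun h j => ?_, fun h => ⟨hy, fun v hv => by_contra fun hn => hv ?_⟩⟩
      · rw [ymov, eval_X]
        exact by_contra fun h0 => (mem_mov.1 (a j).2).2 (h.2 _ h0)
      · by_cases hv' : v ∈ V
        · have h4 : W.I ⊔ sI (fun j => ymov V w (a j)) ≤ mx y := Jac.sup_span_le (Jac.I_le_mx hy) h
          have h5 := h4 (h1 ⟨v, mem_mov.2 ⟨hv', hn⟩⟩)
          rw [mem_mx, map_mul, ymov, eval_X] at h5
          exact (mul_eq_zero.1 h5).resolve_left hry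
        · exact hV.2 y hy v hv'
    have h6 := Subspace.finrank_add_finrank_dualCoannihilator_eq
      (Submodule.span ℂ (Set.range (φ ∘ a)))
    rw [finrank_span_eq_card hli] at h6
    have h7 : finrank ℂ (W.Tan z ⊓ LinearMap.ker (dS z (ymov V w)) : Submodule ℂ Pt) ≤
        finrank ℂ (Submodule.span ℂ (Set.range (φ ∘ a))).dualCoannihilator := by
      rw [← Submodule.finrank_map_subtype_eq]
      refine Submodule.finrank_mono fun ξ hξ => ⟨⟨ξ, hξ.1⟩, ?_, rfl⟩
      rw [SetLike.mem_coe, Submodule.mem_dualCoannihilator]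
      intro ψ hψ
      refine Submodule.span_induction (p := fun ψ _ => ψ ⟨ξ, hξ.1⟩ = 0) ?_ rfl ?_ ?_ hψ
      · rintro _ ⟨j, rfl⟩
        have h8 := mem_ker_dS.1 hξ.2 (a j)
        rw [ymov, dAt_X] at h8
        exact h8
      · intro p q _ _ hp hq
        rw [LinearMap.add_apply, hp, hq, add_zero]
      · intro c p _ hp
        rw [LinearMap.smul_apply, hp, smul_zero]
    have h8 := (hs z hz).trans h3
    refine (ENat.add_le_add_iff_right (ENat.natCast_ne_top (Fintype.card κ))).1 (le_trans ?_ h8)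
    exact_mod_cast (by omega : finrank ℂ (W.Tan z ⊓ LinearMap.ker (dS z (ymov V w)) :
      Submodule ℂ Pt) + Fintype.card κ ≤ finrank ℂ (W.Tan z))

/-- the trivial bundle of the moving coordinates -/
def amov (X : Spc) (V : Finset Var) (hV : X.Vars V) (w : ℕ → ℤ) : Bun X :=
  triv X (fun v : mov V w => vdeg v.1) fun v => vdeg_mem (hV.1 _ (mem_mov.1 v.2).1)
/-- its Euler class -/
def gw (X : Spc) (V : Finset Var) (w : ℕ → ℤ) : Op X := ∏ v ∈ mov V w, (1 - lb X (-vdeg v))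
lemma eu_amov {V : Finset Var} (hV : X.Vars V) (w : ℕ → ℤ) : eu (amov X V hV w) = gw X V w := by
  rw [eu, Lam_of_kl_sum (A := amov X V hV w) Finset.univ (fun v : mov V w => vdeg v.1) (kl_triv _ _),
    Polynomial.eval_prod, gw, ← Finset.prod_coe_sort (mov V w)]
  simp
lemma pull_gw (p : Proj Y X) {V : Finset Var} (hV : X.Vars V) (w : ℕ → ℤ) :
    Op.pull p (gw X V w) = gw Y V w := by
  rw [gw, gw, map_prod]
  refine Finset.prod_congr rfl fun v hv => ?_
  rw [map_sub, map_one, Op.pull_lb p (neg_mem (vdeg_mem (hV.1 v (mem_mov.1 hv).1)))]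
/-- `prod_one_sub_lb` for the variables of block `b` and weight `w b` -/
lemma gw_eq_zero {V : Finset Var} (hV : Y.Vars V) {w w' : ℕ → ℤ} (hw : Y.TTriv w) {b : ℕ}
    (hb : b ∈ Y.B) (hne : w' b ≠ w b) : gw Y V w' = 0 := by
  have h1 := prod_one_sub_lb hb (V.filter fun v => v.1 = b ∧ v.2.2 = w b)
    (fun v hv => (Finset.mem_filter.1 hv).2.1) fun x hx v hv h0 => Finset.mem_filter.2
      ⟨by by_contra h; exact h0 (hV.2 x hx v h), hv, by rw [hw x hx v h0, hv]⟩
  refine zero_dvd_iff.1 (h1 ▸ Finset.prod_dvd_prod_of_subset _ _ _ fun v hv => ?_)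
  obtain ⟨h2, h3, h4⟩ := Finset.mem_filter.1 hv
  exact mem_mov.2 ⟨h2, by rw [h3, h4]; exact hne.symm⟩
/-- Partial fractions. `S` = functions with values in the weights of `V` on `X.B`, zero outside.
Otherwise a prime `𝔭 ⊇ (gw w)_w` avoids `tHom Mov` (`Ideal.exists_le_prime_disjoint`); every block
has a variable `v_b` with `1 - lb (-vdeg v_b) ∈ 𝔭` (`prod_one_sub_lb`); for `w b = wt v_b` a factor
of `gw w` lies in `𝔭`, and two such factors of one block give `1 - t^k ∈ 𝔭`. -/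
theorem exists_part {V : Finset Var} (hV : X.Vars V) : ∃ (S : Finset (ℕ → ℤ))
    (u : LaurentPolynomial ℤ) (c : (ℕ → ℤ) → Op X), u ∈ Mov ∧ (∀ w ∈ S, ∀ b ∉ X.B, w b = 0) ∧
      tHom X u = ∑ w ∈ S, c w * gw X V w := by
  classical
  let S : Finset (ℕ → ℤ) := (X.B.pi fun _ => V.image fun v => v.2.2).image
    fun f b => if h : b ∈ X.B then f b h else 0
  have hS : ∀ w ∈ S, ∀ b ∉ X.B, w b = 0 := fun w hw b hb => by
    obtain ⟨f, -, rfl⟩ := Finset.mem_image.1 hw
    exact dif_neg hb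
  by_cases h : ∃ u ∈ Mov, tHom X u ∈ Ideal.span (gw X V '' S)
  · obtain ⟨u, hu, h⟩ := h
    obtain ⟨c, hc⟩ := (Submodule.mem_span_image_finset_iff_exists_fun' _).1 h
    exact ⟨S, u, c, hu, hS, hc.symm⟩
  exfalso
  obtain ⟨p, hp, hle, hd⟩ := Ideal.exists_le_prime_disjoint (Ideal.span (gw X V '' S))
    (Mov.map (tHom X)) (Set.disjoint_left.2 (by
      rintro _ h1 ⟨u, hu, rfl⟩
      exact h ⟨u, hu, h1⟩))
  have h1 : ∀ b ∈ X.B, ∃ v ∈ V, v.1 = b ∧ 1 - lb X (-vdeg v) ∈ p := fun b hb => by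
    have h2 := prod_one_sub_lb hb (V.filter fun v => v.1 = b)
      (fun v hv => (Finset.mem_filter.1 hv).2) fun x hx v hv h0 => Finset.mem_filter.2
        ⟨by by_contra h; exact h0 (hV.2 x hx v h), hv⟩
    obtain ⟨v, hv, h3⟩ := (Ideal.IsPrime.prod_mem_iff (hp := hp)).1 (h2 ▸ p.zero_mem)
    exact ⟨v, (Finset.mem_filter.1 hv).1, (Finset.mem_filter.1 hv).2, h3⟩
  choose vb h2 h3 h4 using h1
  have hw : (fun b => if h : b ∈ X.B then (vb b h).2.2 else 0) ∈ S :=
    Finset.mem_image.2 ⟨fun b h => (vb b h).2.2,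
      Finset.mem_pi.2 fun b hb => Finset.mem_image_of_mem _ (h2 b hb), rfl⟩
  obtain ⟨v, hv, h5⟩ := (Ideal.IsPrime.prod_mem_iff (hp := hp)).1
    (hle (Ideal.subset_span ⟨_, hw, rfl⟩))
  obtain ⟨h6, h7⟩ := mem_mov.1 hv
  have hb := hV.1 v h6
  rw [dif_pos hb] at h7
  refine Set.disjoint_left.1 hd ?_
    ⟨_, Submonoid.subset_closure ⟨_, sub_ne_zero.2 h7, rfl⟩, rfl⟩
  have h8 : lb X ((v.2.2 - (vb v.1 hb).2.2) • eT) * lb X (-vdeg v) = lb X (-vdeg (vb v.1 hb)) := by
    rw [← lb_add, vdeg, vdeg, h3, sub_smul]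
    congr 1
    abel
  rw [SetLike.mem_coe, map_sub, map_one, tHom_T]
  convert sub_mem (h4 v.1 hb)
    (Ideal.mul_mem_left _ (lb X ((v.2.2 - (vb v.1 hb).2.2) • eT)) h5) using 1
  rw [mul_sub, h8]
  ring

end Crest.Agent.N265.V
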