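import Crest.Agent.N265.V.Psi
import Crest.Agent.N265.V.Fix

/-! # Row 265, layer V: OUTPUT. Zero locus lemma, excess formula, virtual localization -/

set_option autoImplicit false
noncomputable section
open MvPolynomial Module

namespace Crest.Agent.N265.V
open GM Bun

/-- excess intersection formula -/
theorem excess {W Z : Spc} {r : ℕ} {E : Bun W} (hE : E.Rk r) {s : E.ι → R} (hs : E.IsSec s)
    (hh : ∀ i, Hmg (E.deg i) (s i)) (hR : Reg W Z s) {C : Bun Z}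
    (hC : (E.pull hR.sub.proj).kl = (hR.nor (E := E.pull hR.sub.proj) hh).kl + C.kl) :
    incl Z W (eu C • one Z) = eu E • one W := by
  rw [← psi_one (cone_of_sec E hs hh hR.sub hR.zero) (hE.pull _) hR hC, incl_psi hE hs hR.sub]

/-- rank-nullity for the restriction to a finite-dimensional subspace -/
lemma finrank_inf_ker_add {M N : Type} [AddCommGroup M] [Module ℂ M] [AddCommGroup N] [Module ℂ N]
    (U : Submodule ℂ M) [Module.Finite ℂ U] (φ : M →ₗ[ℂ] N) :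
    finrank ℂ (U ⊓ LinearMap.ker φ : Submodule ℂ M) + finrank ℂ (U.map φ) = finrank ℂ U := by
  have h := LinearMap.finrank_range_add_finrank_ker (φ.domRestrict U)
  rw [LinearMap.range_domRestrict, LinearMap.ker_domRestrict,
    ← Submodule.finrank_map_subtype_eq, Submodule.map_comap_subtype] at h
  omega
/-- constant covectors that restrict to a basis of the dual of a subspace -/
lemma exists_inj_mat {ι : Type} [Fintype ι] (U : Submodule ℂ (ι → ℂ)) {r : ℕ}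
    (hU : finrank ℂ U = r) : ∃ a : Matrix (Fin r) ι ℂ, U ⊓ LinearMap.ker a.mulVecLin = ⊥ := by
  classical
  obtain ⟨φ, hφ⟩ := LinearMap.exists_extend (p := U)
    (LinearEquiv.ofFinrankEq U (Fin r → ℂ) (by simp [hU])).toLinearMap
  refine ⟨LinearMap.toMatrix' φ, ?_⟩
  rw [← Matrix.toLin'_apply', Matrix.toLin'_toMatrix', eq_bot_iff]
  rintro v ⟨h1, h2⟩
  have h3 := DFunLike.congr_fun hφ ⟨v, h1⟩
  simp only [LinearMap.comp_apply, Submodule.subtype_apply, LinearEquiv.coe_coe] at h3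
  rw [show φ v = 0 from h2, eq_comm, LinearEquiv.map_eq_zero_iff] at h3
  exact congrArg Subtype.val h3
lemma eu_zero (X : Spc) : eu (Bun.zero X) = 1 := by
  rw [eu, Lam_of_kl_sum (∅ : Finset Unit) (fun _ => 0) (by rw [kl_zero, Finset.sum_empty]),
    Finset.prod_empty, Polynomial.eval_one]

/-- Task V7. Near `z` choose `r` constant covectors that are a basis of `(E z)^∨`, `y = a s`;
`IsAlg.exists_retr` gives `ρ s = H y` on `W`; `Jac.zl_at`. -/
theorem zl_reg {W Z : Spc} {n r : ℕ} (hW : W.Sm n) {E : Bun W} (hE : E.Rk r) {s : E.ι → R}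
    (hs : E.IsSec s) (hZ : Z.Sub W) (hz : ∀ x ∈ W.pts, x ∈ Z.pts ↔ ∀ i, eval x (s i) = 0)
    (ht : ∀ z ∈ Z.pts,
      finrank ℂ (W.Tan z ⊓ LinearMap.ker (dS z s) : Submodule ℂ Pt) + r ≤ n) :
    Reg W Z s ∧ Z.Sm (n - r) ∧ ∀ z ∈ Z.pts, r ≤ n ∧ (W.Tan z).map (dS z s) = E.L z := by
  have hsI : ∀ i, s i ∈ Z.I := fun i x hx => (hz x (hZ.2 hx)).1 hx i
  have hd : ∀ z ∈ Z.pts, ∀ ξ ∈ W.Tan z, dS z s ξ ∈ E.L z := fun z hzz ξ hξ =>
    E.dAt_mem hs (hZ.2 hzz) (fun i => hsI i z hzz) hξ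
  have key : ∀ z ∈ Z.pts, finrank ℂ (W.Tan z ⊓ LinearMap.ker (dS z s) : Submodule ℂ Pt) + r = n ∧
      Z.ldim z = finrank ℂ (Z.Tan z) ∧ Z.Tan z = W.Tan z ⊓ LinearMap.ker (dS z s) := by
    intro z hzz
    have hzW := hZ.2 hzz
    obtain ⟨a, ha⟩ := exists_inj_mat (E.L z) (hE z hzW)
    obtain ⟨ρ, H, hρ, hH⟩ := E.alg.exists_retr (a.map (C : ℂ → R)) hzW (by rwa [B0.mev_C])
    let y : Fin r → R := fun j => ∑ i, C (a j i) * s i
    have hy : ∀ ξ j, dAt z ξ (y j) = a.mulVecLin (dS z s ξ) j := fun ξ j => by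
      simp only [y, Jac.dAt_sum, Jac.dAt_C_mul, Matrix.mulVecLin_apply, Matrix.mulVec, dotProduct,
        dS_apply]
    have hT : ∀ ξ ∈ W.Tan z, (∀ j, dAt z ξ (y j) = 0) →
        ξ ∈ W.Tan z ⊓ LinearMap.ker (dS z s) := by
      intro ξ hξ h0
      refine ⟨hξ, ?_⟩
      have h1 : a.mulVecLin (dS z s ξ) = 0 := by
        funext j
        rw [← hy, h0, Pi.zero_apply]
      have h2 : dS z s ξ ∈ E.L z ⊓ LinearMap.ker a.mulVecLin := ⟨hd z hzz ξ hξ, h1⟩
      rw [ha] at h2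
      exact h2
    obtain ⟨h1, h2, h3, -⟩ := Jac.zl_at hZ hzz (hW z hzW).2.ge y
      (fun j => Ideal.sum_mem _ fun i _ => Ideal.mul_mem_left _ _ (hsI i)) hρ
      (fun x hx hx0 h0 => by
        have h4 := (hH x hx).2 _ (hs x hx)
        have h5 : mev x (a.map (C : ℂ → R)) (fun i => eval x (s i)) = 0 := by
          funext j
          have h6 := h0 j
          simp only [y, map_sum, map_mul] at h6
          exact h6
        rw [h5, map_zero] at h4
        exact (hz x hx).2 fun i => (mul_eq_zero.1 (congrFun h4 i).symm).resolve_left hx0)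
      _ hT (ht z hzz)
    have h4 : Z.Tan z = W.Tan z ⊓ LinearMap.ker (dS z s) := by
      ext ξ
      rw [h3]
      refine ⟨fun h => hT ξ h.1 h.2, fun h => ⟨h.1, fun j => ?_⟩⟩
      rw [hy, show dS z s ξ = 0 from h.2, map_zero, Pi.zero_apply]
    exact ⟨h4 ▸ h1, h2, h4⟩
  refine ⟨⟨hZ, hz, fun z hzz => hW.smAt (hZ.2 hzz), fun z hzz => ?_⟩, fun z hzz => ?_,
    fun z hzz => ?_⟩ <;> obtain ⟨h1, h2, h3⟩ := key z hzz
  · rw [h2, h3]
  · have h4 : finrank ℂ (Z.Tan z) = n - r := by rw [h3]; omega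
    exact ⟨h4, by rw [h2, h4]⟩
  · refine ⟨by omega, Submodule.eq_of_le_of_finrank_eq ?_ ?_⟩
    · rintro _ ⟨ξ, hξ, rfl⟩
      exact hd z hzz ξ hξ
    · have h4 := finrank_inf_ker_add (W.Tan z) (dS z s)
      rw [(hW z (hZ.2 hzz)).1] at h4
      rw [hE z (hZ.2 hzz)]
      omega
/-- if the differential is onto, the normal bundle is the bundle itself -/
lemma kl_nor_eq {W Z : Spc} {E : Bun W} {s : E.ι → R} (hh : ∀ i, Hmg (E.deg i) (s i))
    (hR : Reg W Z s) (h : ∀ z ∈ Z.pts, (W.Tan z).map (dS z s) = E.L z) :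
    (hR.nor (E := E.pull hR.sub.proj) hh).kl = (E.pull hR.sub.proj).kl :=
  kl_re _ fun z hz => by
    change _ = E.L (restr W.B z)
    rw [W.restr_eq (hR.sub.2 hz)]
    exact h z hz

/-- **zero locus lemma** -/
theorem zl {W Z : Spc} {n r : ℕ} (hW : W.Sm n) {E : Bun W} (hE : E.Rk r) {s : E.ι → R}
    (hs : E.IsSec s) (hh : ∀ i, Hmg (E.deg i) (s i)) (hZ : Z.Sub W)
    (hz : ∀ x ∈ W.pts, x ∈ Z.pts ↔ ∀ i, eval x (s i) = 0)
    (ht : ∀ z ∈ Z.pts,
      finrank ℂ (W.Tan z ⊓ LinearMap.ker (dS z s) : Submodule ℂ Pt) + r ≤ n) :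
    Z.Sm (n - r) ∧ (∀ z ∈ Z.pts, r ≤ n ∧ Z.Tan z = W.Tan z ⊓ LinearMap.ker (dS z s) ∧
      (W.Tan z).map (dS z s) = E.L z) ∧ push Z W (one Z) = eu E • one W := by
  obtain ⟨hR, h1, h2⟩ := zl_reg hW hE hs hZ hz ht
  refine ⟨h1, fun z hzz => ⟨(h2 z hzz).1, (hR.eqs hzz).2.1, (h2 z hzz).2⟩, ?_⟩
  rw [push_eq_incl hZ, ← excess hE hs hh hR (C := Bun.zero Z)
    (by rw [kl_zero, add_zero, kl_nor_eq hh hR fun z hzz => (h2 z hzz).2]), eu_zero, one_smul]
/-- the tangent bundle of a zero locus -/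
theorem zl_tan {W Z : Spc} {n r : ℕ} (hW : W.Sm n) {E : Bun W} (hE : E.Rk r) {s : E.ι → R}
    (hs : E.IsSec s) (hh : ∀ i, Hmg (E.deg i) (s i)) (hZ : Z.Sub W)
    (hz : ∀ x ∈ W.pts, x ∈ Z.pts ↔ ∀ i, eval x (s i) = 0)
    (ht : ∀ z ∈ Z.pts,
      finrank ℂ (W.Tan z ⊓ LinearMap.ker (dS z s) : Submodule ℂ Pt) + r ≤ n)
    {V : Finset Var} (hV : W.Vars V) {m : ℕ} (hm : Z.Sm m) :
    ((Bun.tan W V hV n hW).pull hZ.proj).kl =
      (Bun.tan Z V (vars_sub hV hZ) m hm).kl + (E.pull hZ.proj).kl := by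
  obtain ⟨hR, -, h2⟩ := zl_reg hW hE hs hZ hz ht
  have h3 := hR.kl_nor (E := E.pull hZ.proj) hh hV (Spc.Sub.refl Z) hR.sm fun z hzz => hm.smAt hzz
  rw [kl_tanOn hZ hV hW, kl_tanOn_of_eq _ _ hm _ fun _ _ => rfl] at h3
  rw [h3, ← kl_nor_eq hh hR fun z hzz => (h2 z hzz).2]
  exact congrArg _ ((K.pull_kl _ _).symm.trans (K.pull_self _))

/-- localization, one weight vector; `N` is the normal bundle of `W.fix w` in `W`, `C` the excess
bundle of `Q.fix w` in `W.fix w` -/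
theorem loc_w' {W Q : Spc} {n r : ℕ} (hW : W.Sm n) {V : Finset Var} (hV : W.Vars V) {E : Bun Q}
    (hE : E.Rk r) {s : E.ι → R} (h : Cone W Q E s) (w : ℕ → ℤ)
    (ht : ∀ z ∈ (Q.fix w).pts, (finrank ℂ (W.Tan z ⊓ fixS w ⊓ LinearMap.ker (dS z s) :
      Submodule ℂ Pt) : ℕ∞) ≤ (Q.fix w).ldim z) :
    ∃ (e : Op (Q.fix w)) (N C : Bun (Q.fix w)), (∀ i, nwt Q.B w (N.deg i) ≠ 0) ∧
      eu N * e = gw (Q.fix w) V w ∧
      gw Q V w • psi h hE (one W) = incl (Q.fix w) Q ((e * eu C) • one (Q.fix w)) ∧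
      ∀ (F : Spc) (hF : F.Sub (Q.fix w)) (m : ℕ) (hm : F.Sm m),
        (∀ z ∈ F.pts, finrank ℂ (W.Tan z ⊓ fixS w ⊓ LinearMap.ker (dS z s) : Submodule ℂ Pt) ≤ m) →
        ((Bun.tan W V hV n hW).pull ((hF.trans (fix_sub Q w)).trans h.sub).proj).kl +
            (C.pull hF.proj).kl = (E.pull (hF.trans (fix_sub Q w)).proj).kl +
          (Bun.tan F V (vars_sub hV ((hF.trans (fix_sub Q w)).trans h.sub)) m hm).kl +
            (N.pull hF.proj).kl := by
  have hW' := fix_sub W w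
  have hQ' := fix_sub Q w
  have hQW : (Q.fix w).Sub (W.fix w) :=
    ⟨h.sub.1, fun x hx => mem_fix.2 ⟨h.sub.2 (mem_fix.1 hx).1, (mem_fix.1 hx).2⟩⟩
  have hR : Reg W (W.fix w) (ymov V w) := reg_fix hV w fun z hz => hW.smAt (hW'.2 hz)
  have hh : ∀ i, Hmg ((amov W V hV w).deg i) (ymov V w i) := fun v => gam_X v.1
  obtain ⟨C₁, hC₁⟩ := hR.exists_excess (E := (amov W V hV w).pull hW'.proj) hh
    fun _ _ _ _ => trivial
  have h1 := excess (E := amov W V hV w) (rk_triv _ _) (fun _ _ => trivial) hh hR hC₁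
  have h' : Cone (W.fix w) (Q.fix w) (E.pull hQ'.proj) s :=
    cone_pull h hW' hQ' hQW fun x hx hx' => mem_fix.2 ⟨hx', (mem_fix.1 hx).2⟩
  have hTw : ∀ z ∈ (W.fix w).pts, (W.fix w).Tan z = W.Tan z ⊓ fixS w := fun z hz => by
    rw [(hR.eqs hz).2.1, tan_inf_ker hV]
  have hR' : Reg (W.fix w) (Q.fix w) s := ⟨hQW, h'.zero, fun z hz => (hR.eqs (hQW.2 hz)).1,
    fun z hz => by rw [hTw z (hQW.2 hz)]; exact ht z hz⟩
  obtain ⟨C₂, hC₂⟩ := hR'.exists_excess (E := E.pull hQ'.proj) h'.hmg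
    fun z hz ξ hξ => h'.toSyz.dS_mem hz (fun i => hR'.mem_I i z hz) hξ
  refine ⟨Op.pull hQW.proj (eu C₁), (hR.nor (E := (amov W V hV w).pull hW'.proj) hh).pull hQW.proj,
    C₂, fun v => ?_, ?_, ?_, fun F hF m hm hd => ?_⟩
  · obtain ⟨h2, h3⟩ := mem_mov.1 v.2
    change nwt Q.B w (vdeg v.1) ≠ 0
    rw [nwt_vdeg w ((vars_sub hV h.sub).1 _ h2)]
    exact sub_ne_zero.2 h3
  · rw [eu_pull, ← map_mul, ← eu_add hC₁, eu_pull, eu_amov, pull_gw _ hV,
      pull_gw _ (vars_sub hV hW')]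
  · rw [← pull_gw h.sub.proj hV, ← psi_smul, ← eu_amov hV, ← h1, psi_incl h hE hW' hQ' h',
      psi_smul, psi_one h' _ hR' hC₂, mul_smul]
  · have hFW := hF.trans hQW
    have e1 := hR.kl_nor (E := (amov W V hV w).pull hW'.proj) hh hV hFW
      (fun z hz => hW.smAt (hW'.2 (hFW.2 hz))) fun z hz => (hR.eqs (hFW.2 hz)).1
    have e2 := hR'.kl_nor (E := E.pull hQ'.proj) h'.hmg (vars_sub hV hW') hF
      (fun z hz => (hR.eqs (hFW.2 hz)).1) fun z hz => (hR'.eqs (hF.2 hz)).1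
    rw [kl_tanOn_of_eq hF _ hm _ fun z hz => Submodule.eq_of_le_of_finrank_le
      (TanI_anti hF.I_le z) (by
        rw [(hR'.eqs (hF.2 hz)).2.1, hTw z (hFW.2 hz), (hm z hz).1]; exact hd z hz)] at e2
    rw [kl_tanOn _ hV hW, e2] at e1
    have e4 := congrArg (K.pull hF.proj) hC₂
    rw [map_add, ← K.pull_kl hQ'.proj, K.pull_pull, K.pull_kl, K.pull_kl, K.pull_kl] at e4
    rw [e1, e4, ← K.pull_kl hF.proj (Bun.pull _ hQW.proj), ← K.pull_kl hQW.proj, K.pull_pull,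
      K.pull_kl]
    ring
/-- the Euler class identity on a space over the fixed locus -/
lemma eu_mul_pull {X Y : Spc} (p : Proj Y X) {e g : Op X} {N C : Bun X} (h : eu N * e = g)
    {M₁ M₂ : Bun Y} (hM : K.pull p N.kl + M₂.kl = K.pull p C.kl + M₁.kl) :
    eu M₁ * Op.pull p (e * eu C) = Op.pull p g * eu M₂ := by
  rw [K.pull_kl, K.pull_kl] at hM
  have h1 := eu_add_add hM
  rw [eu_pull, eu_pull] at h1
  rw [← h, map_mul, map_mul]
  linear_combination -Op.pull p e * h1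
/-- localization, one weight vector -/
theorem loc_w {W Q : Spc} {n r : ℕ} (hW : W.Sm n) {V : Finset Var} (hV : W.Vars V) {E : Bun Q}
    (hE : E.Rk r) {s : E.ι → R} (h : Cone W Q E s) (w : ℕ → ℤ)
    (ht : ∀ z ∈ (Q.fix w).pts, (finrank ℂ (W.Tan z ⊓ fixS w ⊓ LinearMap.ker (dS z s) :
      Submodule ℂ Pt) : ℕ∞) ≤ (Q.fix w).ldim z) :
    ∃ b : Op (Q.fix w), gw Q V w • psi h hE (one W) = incl (Q.fix w) Q (b • one (Q.fix w)) ∧
      ∀ (F : Spc) (hF : F.Sub (Q.fix w)) (m : ℕ) (hm : F.Sm m),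
        (∀ z ∈ F.pts, finrank ℂ (W.Tan z ⊓ fixS w ⊓ LinearMap.ker (dS z s) : Submodule ℂ Pt) ≤ m) →
        ∀ M₁ M₂ : Bun F,
          ((Bun.tan W V hV n hW).pull ((hF.trans (fix_sub Q w)).trans h.sub).proj).kl + M₂.kl =
            (E.pull (hF.trans (fix_sub Q w)).proj).kl +
              (Bun.tan F V (vars_sub hV ((hF.trans (fix_sub Q w)).trans h.sub)) m hm).kl + M₁.kl →
          eu M₁ * Op.pull hF.proj b = gw F V w * eu M₂ := by
  obtain ⟨e, N, C, -, h1, h2, h3⟩ := loc_w' hW hV hE h w ht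
  refine ⟨_, h2, fun F hF m hm hd M₁ M₂ hM => ?_⟩
  rw [eu_mul_pull hF.proj h1 (M₂ := M₂), pull_gw _ (vars_sub hV ((fix_sub Q w).trans h.sub))]
  rw [K.pull_kl, K.pull_kl]
  linear_combination hM - h3 F hF m hm hd
/-- the fixed directions only depend on the weights of the blocks -/
lemma tan_inf_fixS {W : Spc} {w w' : ℕ → ℤ} (h : ∀ b ∈ W.B, w b = w' b) (z : Pt) :
    W.Tan z ⊓ fixS w = W.Tan z ⊓ fixS w' := by
  have key : ∀ {w w' : ℕ → ℤ}, (∀ b ∈ W.B, w b = w' b) → W.Tan z ⊓ fixS w ≤ W.Tan z ⊓ fixS w' := by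
    rintro w w' h ξ ⟨h1, h2⟩
    refine ⟨h1, mem_fixS.2 fun v hv => ?_⟩
    by_cases hb : v.1 ∈ W.B
    · exact mem_fixS.1 h2 v (by rwa [h _ hb])
    · rw [← dAt_X z ξ v]
      refine h1 _ fun x hx => ?_
      by_contra h0
      exact hb (W.mem_B hx (by rwa [eval_X] at h0))
  exact le_antisymm (key h) (key fun b hb => (h b hb).symm)
/-- the weights of the blocks are determined by a point -/
lemma wt_eq_of_mem {F : Spc} {w w' : ℕ → ℤ} (hT : F.TTriv w') {z : Pt} (hz : z ∈ F.pts)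
    (hw : ∀ v : Var, z v ≠ 0 → v.2.2 = w v.1) : ∀ b ∈ F.B, w b = w' b := fun b hb => by
  obtain ⟨v, rfl, hv⟩ := F.rel z hz b hb
  rw [← hw v hv, hT z hz v hv]

/-- **virtual localization**, with the moving normal bundles `N j` and the excess bundles `C j` of
the fixed pieces `F j`: `T^vir = TW - E` restricts on `F j` to `TF + N j - C j`, and
`β j = u · eu (C j) / eu (N j)`, also after pull-back. -/
theorem loc' {W Q : Spc} {n r : ℕ} (hW : W.Sm n) {V : Finset Var} (hV : W.Vars V) {E : Bun Q}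
    (hE : E.Rk r) {s : E.ι → R} (h : Cone W Q E s) {J : Type} [Fintype J] (F : J → Spc)
    (w : J → ℕ → ℤ) (m : J → ℕ) (hF : ∀ j, (F j).Sub Q) (hT : ∀ j, (F j).TTriv (w j))
    (hd : ∀ i j, i ≠ j → Disjoint (F i).pts (F j).pts)
    (hc : ∀ x ∈ Q.pts, ∀ w' : ℕ → ℤ, (∀ v : Var, x v ≠ 0 → v.2.2 = w' v.1) → ∃ j, x ∈ (F j).pts)
    (hm : ∀ j, (F j).Sm (m j))
    (ht : ∀ j, ∀ z ∈ (F j).pts,
      finrank ℂ (W.Tan z ⊓ fixS (w j) ⊓ LinearMap.ker (dS z s) : Submodule ℂ Pt) ≤ m j) :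
    ∃ (vir : G Q) (u : LaurentPolynomial ℤ) (β : ∀ j, Op (F j)) (N C : ∀ j, Bun (F j)), u ∈ Mov ∧
      tHom Q u • vir = ∑ j, push (F j) Q (β j • one (F j)) ∧
      (∀ j i, nwt (F j).B (w j) ((N j).deg i) ≠ 0) ∧
      (∀ j, ((Bun.tan W V hV n hW).pull ((hF j).trans h.sub).proj).kl + (C j).kl =
        (E.pull (hF j).proj).kl +
          (Bun.tan (F j) V (vars_sub hV ((hF j).trans h.sub)) (m j) (hm j)).kl + (N j).kl) ∧
      ∀ j (Y : Spc) (p : Proj Y (F j)) (M₁ M₂ : Bun Y),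
        K.pull p (N j).kl + M₂.kl = K.pull p (C j).kl + M₁.kl →
        eu M₁ * Op.pull p (β j) = tHom Y u * eu M₂ := by
  classical
  obtain ⟨S, u, c, hu, -, hp⟩ := exists_part (vars_sub hV h.sub)
  have h1 : ∀ j w', ∀ z ∈ (F j).pts, z ∈ (Q.fix w').pts → (F j).Sub (Q.fix w') ∧
      finrank ℂ (W.Tan z ⊓ fixS w' ⊓ LinearMap.ker (dS z s) : Submodule ℂ Pt) ≤ m j := by
    intro j w' z hz hz'
    have h2 := wt_eq_of_mem (hT j) hz (mem_fix.1 hz').2
    refine ⟨⟨(hF j).1, fun x hx => mem_fix.2 ⟨(hF j).2 hx, fun v hv => ?_⟩⟩, ?_⟩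
    · rw [h2 _ ((F j).mem_B hx hv), hT j x hx v hv]
    · rw [tan_inf_fixS (((hF j).trans h.sub).1 ▸ h2)]
      exact ht j z hz
  choose e N C hN he hb hK using fun w' => loc_w' hW hV hE h w' fun z hz => by
    obtain ⟨j, hj⟩ := hc z (mem_fix.1 hz).1 w' (mem_fix.1 hz).2
    obtain ⟨h2, h3⟩ := h1 j w' z hj hz
    refine le_trans ?_ (Spc.ldim_mono h2 hj)
    rw [(hm j z hj).2]
    exact_mod_cast h3
  have hF' : ∀ j, (F j).Sub (Q.fix (w j)) := fun j => (hT j).sub_fix (hF j)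
  have hK' := fun j w' (hj : (F j).Sub (Q.fix w')) =>
    hK w' (F j) hj (m j) (hm j) fun z hz => (h1 j w' z hz (hj.2 hz)).2
  refine ⟨psi h hE (one W), u, fun j => ∑ w' ∈ S, if hj : (F j).Sub (Q.fix w') then
    Op.pull (hF j).proj (c w') * Op.pull hj.proj (e w' * eu (C w')) else 0,
    fun j => (N (w j)).pull (hF' j).proj, fun j => (C (w j)).pull (hF' j).proj, hu, ?_,
    fun j i => (hF j).1 ▸ hN (w j) i, fun j => hK' j _ (hF' j), fun j Y p M₁ M₂ hM => ?_⟩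
  · simp only [Finset.sum_smul, map_sum]
    rw [Finset.sum_comm, hp, Finset.sum_smul]
    refine Finset.sum_congr rfl fun w' _ => ?_
    rw [mul_smul, hb, one_disjoint (fun j : {j // (F j).Sub (Q.fix w')} => F j.1) (fun j => j.2)
      (fun x hx => by
        obtain ⟨j, hj⟩ := hc x (mem_fix.1 hx).1 w' (mem_fix.1 hx).2
        exact ⟨⟨j, (h1 j w' x hj hx).1⟩, hj⟩) fun i j hij => hd _ _ fun e => hij (Subtype.ext e),
      Finset.smul_sum, map_sum, Finset.smul_sum,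
      ← Finset.sum_subtype (Finset.univ.filter fun j => (F j).Sub (Q.fix w')) (by simp)
        fun j => c w' • incl (Q.fix w') Q ((e w' * eu (C w')) • incl (F j) (Q.fix w') (one (F j))),
      Finset.sum_filter]
    refine Finset.sum_congr rfl fun j _ => ?_
    split_ifs with hj
    · rw [mul_smul (Op.pull _ (c w')), push_smul, push_eq_incl (hF j),
        ← incl_incl hj (fix_sub Q w'), ← push_eq_incl hj, push_smul]
    · rw [zero_smul, map_zero]
  · rw [← Op.pull_tHom p, ← Op.pull_tHom (hF j).proj, hp, map_sum, map_sum, map_sum, Finset.sum_mul,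
      Finset.mul_sum]
    refine Finset.sum_congr rfl fun w' _ => ?_
    rw [map_mul (Op.pull (hF j).proj), pull_gw _ (vars_sub hV h.sub)]
    split_ifs with hj
    · have h2 := congrArg (K.pull p) (hK' j w' hj)
      have h3 := congrArg (K.pull p) (hK' j _ (hF' j))
      simp only [map_add] at h2 h3
      rw [map_mul (Op.pull p), map_mul (Op.pull p) _ (gw _ _ _), Op.pull_pull p hj.proj,
        mul_left_comm, eu_mul_pull (p.trans hj.proj) (he w') (M₂ := M₂), ← Op.pull_pull p hj.proj,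
        pull_gw hj.proj (vars_sub hV ((fix_sub Q w').trans h.sub)), mul_assoc]
      rw [← K.pull_pull p hj.proj, ← K.pull_pull p hj.proj, K.pull_kl hj.proj, K.pull_kl hj.proj]
      linear_combination hM + h3 - h2
    · have h2 : ∃ b ∈ (F j).B, w' b ≠ w j b := by
        by_contra h0
        push Not at h0
        exact hj ⟨(hF j).1, fun x hx => mem_fix.2 ⟨(hF j).2 hx, fun v hv => by
          rw [h0 _ ((F j).mem_B hx hv), hT j x hx v hv]⟩⟩
      obtain ⟨b₀, hb₀, hne⟩ := h2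
      rw [gw_eq_zero (vars_sub hV ((hF j).trans h.sub)) (hT j) hb₀ hne, mul_zero, map_zero,
        mul_zero, zero_mul]

/-- **virtual localization**. `F j` are the fixed pieces; if `T^vir = TW - E` restricts on `F j` to
`TF + M₁ - M₂` then `a j = u · eu M₂ / eu M₁`. -/
theorem loc {W Q : Spc} {n r : ℕ} (hW : W.Sm n) {V : Finset Var} (hV : W.Vars V) {E : Bun Q}
    (hE : E.Rk r) {s : E.ι → R} (h : Cone W Q E s) {J : Type} [Fintype J] (F : J → Spc)
    (w : J → ℕ → ℤ) (m : J → ℕ) (hF : ∀ j, (F j).Sub Q) (hT : ∀ j, (F j).TTriv (w j))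
    (hd : ∀ i j, i ≠ j → Disjoint (F i).pts (F j).pts)
    (hc : ∀ x ∈ Q.pts, ∀ w' : ℕ → ℤ, (∀ v : Var, x v ≠ 0 → v.2.2 = w' v.1) → ∃ j, x ∈ (F j).pts)
    (hm : ∀ j, (F j).Sm (m j))
    (ht : ∀ j, ∀ z ∈ (F j).pts,
      finrank ℂ (W.Tan z ⊓ fixS (w j) ⊓ LinearMap.ker (dS z s) : Submodule ℂ Pt) ≤ m j) :
    ∃ (vir : G Q) (u : LaurentPolynomial ℤ) (a : ∀ j, G (F j)), u ∈ Mov ∧
      tHom Q u • vir = ∑ j, push (F j) Q (a j) ∧ ∀ j (M₁ M₂ : Bun (F j)),
        ((Bun.tan W V hV n hW).pull ((hF j).trans h.sub).proj).kl + M₂.kl =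
          (E.pull (hF j).proj).kl +
            (Bun.tan (F j) V (vars_sub hV ((hF j).trans h.sub)) (m j) (hm j)).kl + M₁.kl →
        eu M₁ • a j = (tHom (F j) u * eu M₂) • one (F j) := by
  obtain ⟨vir, u, β, N, C, hu, h1, -, h2, h3⟩ := loc' hW hV hE h F w m hF hT hd hc hm ht
  refine ⟨vir, u, fun j => β j • one (F j), hu, h1, fun j M₁ M₂ hM => ?_⟩
  rw [smul_smul, ← h3 j (F j) (Proj.refl _) M₁ M₂, Op.pull_self]
  rw [K.pull_self, K.pull_self]
  linear_combination hM - h2 j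

end Crest.Agent.N265.V
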