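import Crest.Agent.N265.G.Ext

/-! # Row 265, layer V, task V1: value at `s = 1` of `p(s) · ∑ a_k s^k` when it is a polynomial -/

set_option autoImplicit false
noncomputable section
open Polynomial

namespace Crest.Agent.N265.V
open Ext
variable {Λ : Type*} [CommRing Λ] {A : Type*} [AddCommGroup A] [Module Λ A]

/-- extension by zero to negative indices -/
def zs (a : ℕ → A) : ℤ → A := fun k => if 0 ≤ k then a k.toNat else 0
/-- `p(s) · ∑ a_k s^k` is a Laurent polynomial -/
def Tame (p : Λ[X]) (a : ℤ → A) : Prop := (Function.support (app p a)).Finite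
/-- its value at `s = 1` -/
def ev (p : Λ[X]) (a : ℤ → A) : A := ∑ᶠ k, app p a k

variable {p q : Λ[X]} {a b : ℤ → A}
lemma zs_natCast (a : ℕ → A) (k : ℕ) : zs a k = a k := by simp [zs]
lemma zs_neg (a : ℕ → A) {k : ℤ} (hk : k < 0) : zs a k = 0 := if_neg (not_le.2 hk)
lemma zs_add (a b : ℕ → A) : zs (a + b) = zs a + zs b := by
  funext k; simp only [zs, Pi.add_apply]; split_ifs <;> simp
lemma zs_sub (a b : ℕ → A) : zs (a - b) = zs a - zs b := by
  funext k; simp only [zs, Pi.sub_apply]; split_ifs <;> simp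
lemma zs_zero : zs (0 : ℕ → A) = 0 := by
  funext k; simp [zs]
lemma zs_smul (c : Λ) (a : ℕ → A) : zs (fun k => c • a k) = c • zs a := by
  funext k; simp only [zs, Pi.smul_apply]; split_ifs <;> simp
lemma zs_map {A' : Type*} [AddCommGroup A'] (f : A' →+ A) (a : ℕ → A') :
    zs (fun k => f (a k)) = fun k => f (zs a k) := by
  funext k; simp only [zs]; split_ifs <;> simp
lemma app_seq_zero (p : Λ[X]) : app p (0 : ℤ → A) = 0 := by
  funext k; simp [app, Polynomial.sum]
lemma app_seq_sub' (p : Λ[X]) (a b : ℤ → A) : app p (a - b) = app p a - app p b :=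
  funext fun k => app_seq_sub p a b k
lemma app_seq_smul (p : Λ[X]) (c : Λ) (a : ℤ → A) : app p (c • a) = c • app p a := by
  funext k
  simp only [app, Polynomial.sum, Pi.smul_apply, Finset.smul_sum, smul_comm c]
lemma tame_zero : Tame p (0 : ℤ → A) := by
  rw [Tame, app_seq_zero]; simp
lemma ev_zero : ev p (0 : ℤ → A) = 0 := by
  rw [ev, app_seq_zero]; simp
lemma Tame.add (ha : Tame p a) (hb : Tame p b) : Tame p (a + b) := by
  rw [Tame, app_seq_add]
  exact (Set.Finite.union ha hb).subset (Function.support_add _ _)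
lemma Tame.sub (ha : Tame p a) (hb : Tame p b) : Tame p (a - b) := by
  rw [Tame, app_seq_sub']
  exact (Set.Finite.union ha hb).subset (Function.support_sub _ _)
lemma ev_add (ha : Tame p a) (hb : Tame p b) : ev p (a + b) = ev p a + ev p b := by
  rw [ev, app_seq_add]
  exact finsum_add_distrib ha hb
lemma ev_sub (ha : Tame p a) (hb : Tame p b) : ev p (a - b) = ev p a - ev p b := by
  rw [ev, app_seq_sub']
  exact finsum_sub_distrib ha hb
lemma Tame.smul (ha : Tame p a) (c : Λ) : Tame p (c • a) := by
  rw [Tame, app_seq_smul]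
  exact Set.Finite.subset ha fun k hk h => hk (by rw [Pi.smul_apply, h, smul_zero])
lemma ev_smul (ha : Tame p a) (c : Λ) : ev p (c • a) = c • ev p a := by
  rw [ev, app_seq_smul]
  exact (smul_finsum' c ha).symm
lemma finite_shift (ha : (Function.support a).Finite) (i : ℤ) :
    (Function.support fun k => a (k - i)).Finite :=
  ha.preimage (f := fun k => k - i) sub_left_injective.injOn
lemma tame_monomial (ha : (Function.support a).Finite) (i : ℕ) (c : Λ) :
    Tame (monomial i c) a :=
  (finite_shift ha i).subset fun k hk h => hk (by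
    rw [app_monomial, show a (k - i) = 0 from h, smul_zero])
lemma tame_of_finite (ha : (Function.support a).Finite) : Tame p a := by
  induction p using Polynomial.induction_on' with
  | add p q hp hq =>
    rw [Tame, show app (p + q) a = app p a + app q a from funext (app_add p q a)]
    exact (Set.Finite.union hp hq).subset (Function.support_add _ _)
  | monomial i c => exact tame_monomial ha i c
lemma ev_of_finite (ha : (Function.support a).Finite) : ev p a = p.eval 1 • ∑ᶠ k, a k := by
  induction p using Polynomial.induction_on' with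
  | add p q hp hq =>
    rw [eval_add, add_smul, ← hp, ← hq, ev]
    simp only [app_add]
    exact finsum_add_distrib (tame_of_finite ha) (tame_of_finite ha)
  | monomial i c =>
    rw [ev, eval_monomial, one_pow, mul_one]
    simp only [app_monomial]
    rw [← smul_finsum' c (finite_shift ha i)]
    congr 1
    exact finsum_comp_equiv (Equiv.subRight (i : ℤ))
lemma Tame.mul (ha : Tame q a) (p : Λ[X]) : Tame (p * q) a := by
  rw [Tame, app_mul]; exact tame_of_finite ha
lemma ev_mul (ha : Tame q a) (p : Λ[X]) : ev (p * q) a = p.eval 1 • ev q a := by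
  rw [ev, app_mul]; exact ev_of_finite ha
lemma app_zs_neg (p : Λ[X]) (a : ℕ → A) {k : ℤ} (hk : k < 0) : app p (zs a) k = 0 :=
  Finset.sum_eq_zero fun i _ => by
    beta_reduce; rw [zs_neg a (by omega), smul_zero]
lemma tame_zs {a : ℕ → A} {k₀ : ℤ} (h : ∀ k, k₀ ≤ k → app p (zs a) k = 0) : Tame p (zs a) :=
  (Set.finite_Ico 0 k₀).subset fun k hk =>
    ⟨not_lt.1 fun h1 => hk (app_zs_neg p a h1), not_le.1 fun h1 => hk (h k h1)⟩
lemma zs_succ (a : ℕ → A) :
    zs (fun k => a (k + 1)) = (fun k => zs a (k + 1)) - Pi.single (-1) (a 0) := by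
  funext k
  rw [Pi.sub_apply]
  rcases lt_trichotomy k (-1) with h | rfl | h
  · rw [zs_neg _ (by omega), zs_neg _ (by omega), Pi.single_eq_of_ne h.ne, sub_zero]
  · simp [zs]
  · obtain ⟨m, rfl⟩ := Int.eq_ofNat_of_zero_le (show 0 ≤ k by omega)
    rw [Pi.single_eq_of_ne h.ne', sub_zero, zs_natCast, ← zs_natCast a (m + 1), Nat.cast_succ]
lemma app_shift (p : Λ[X]) (a : ℤ → A) :
    app p (fun k => a (k + 1)) = fun k => app p a (k + 1) := by
  funext k
  simp only [app, add_sub_right_comm]
lemma finite_single (i : ℤ) (x : A) : (Function.support (Pi.single i x : ℤ → A)).Finite :=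
  (Set.finite_singleton i).subset Pi.support_single_subset
lemma Tame.shift (ha : Tame p a) : Tame p fun k => a (k + 1) := by
  rw [Tame, app_shift]
  simpa only [sub_neg_eq_add] using finite_shift ha (-1)
/-- shifting the sequence -/
lemma Tame.succ {a : ℕ → A} (ha : Tame p (zs a)) : Tame p (zs fun k => a (k + 1)) := by
  rw [zs_succ]
  exact ha.shift.sub (tame_of_finite (finite_single _ _))
lemma ev_succ {a : ℕ → A} (ha : Tame p (zs a)) :
    ev p (zs fun k => a (k + 1)) = ev p (zs a) - p.eval 1 • a 0 := by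
  rw [zs_succ, ev_sub ha.shift (tame_of_finite (finite_single _ _)),
    ev_of_finite (finite_single _ _), finsum_eq_single _ (-1) fun _ h => Pi.single_eq_of_ne h _,
    Pi.single_eq_same, ev, app_shift]
  congr 1
  exact finsum_comp_equiv (Equiv.addRight (1 : ℤ))
/-- telescoping sequences -/
lemma ev_tele {a : ℕ → A} (ha : Tame p (zs a)) :
    Tame p (zs fun k => a k - a (k + 1)) ∧ ev p (zs fun k => a k - a (k + 1)) = p.eval 1 • a 0 := by
  have h : (zs fun k => a k - a (k + 1)) = zs a - zs fun k => a (k + 1) := zs_sub _ _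
  rw [h, ev_sub ha ha.succ, ev_succ ha, sub_sub_cancel]
  exact ⟨ha.sub ha.succ, rfl⟩

section semi
variable {Λ' : Type*} [CommRing Λ'] {A' : Type*} [AddCommGroup A'] [Module Λ' A']
/-- maps with a projection formula -/
lemma app_push (π : Λ →+* Λ') (f : A' →+ A) (hf : ∀ c x, f (π c • x) = c • f x) (p : Λ[X])
    (a : ℤ → A') (k : ℤ) : f (app (p.map π) a k) = app p (fun j => f (a j)) k := by
  rw [app_eq_sum _ (natDegree_map_le (f := π) (p := p)), app_eq_sum p le_rfl, map_sum]
  simp only [coeff_map, hf]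
lemma Tame.push (π : Λ →+* Λ') (f : A' →+ A) (hf : ∀ c x, f (π c • x) = c • f x) {p : Λ[X]}
    {a : ℤ → A'} (ha : Tame (p.map π) a) :
    Tame p (fun j => f (a j)) ∧ f (ev (p.map π) a) = ev p fun j => f (a j) := by
  have h : app p (fun j => f (a j)) = fun k => f (app (p.map π) a k) :=
    funext fun k => (app_push π f hf p a k).symm
  rw [Tame, ev, ev, h]
  exact ⟨Set.Finite.subset ha fun k hk h0 => hk (by simp only [h0, map_zero]), f.map_finsum ha⟩
/-- geometric sequences -/
lemma app_geom (π : Λ →+* Λ') (f : A' →+ A) (hf : ∀ c x, f (π c • x) = c • f x) (p : Λ[X])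
    (ξ ℓ : Λ') (h : ξ * ℓ = 1) (c : A') {a : ℤ → A} {k₀ : ℕ}
    (ha : ∀ k : ℕ, k₀ ≤ k → a k = f (ξ ^ k • c)) {k : ℕ} (hk : k₀ + p.natDegree ≤ k) :
    app p a k = f ((ξ ^ k * p.eval₂ π ℓ) • c) := by
  rw [app_eq_sum p le_rfl, eval₂_eq_sum_range, Finset.mul_sum, Finset.sum_smul, map_sum]
  refine Finset.sum_congr rfl fun i hi => ?_
  have hi' := Finset.mem_range.1 hi
  obtain ⟨m, rfl⟩ : ∃ m, k = m + i := ⟨k - i, by omega⟩
  rw [Nat.cast_add, add_sub_cancel_right, ha m (by omega), ← hf, smul_smul]
  congr 2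
  have : ξ ^ i * ℓ ^ i = 1 := by rw [← mul_pow, h, one_pow]
  linear_combination (-(π (p.coeff i)) * ξ ^ m) * this
end semi

/-- the inverse power series -/
lemma ev_inv {S : PowerSeries Λ} (h : (p : PowerSeries Λ) * S = 1) (c : A) :
    Tame p (zs fun k => PowerSeries.coeff k S • c) ∧
      ev p (zs fun k => PowerSeries.coeff k S • c) = c := by
  have key : app p (zs fun k => PowerSeries.coeff k S • c) = Pi.single 0 c := by
    funext k
    rcases lt_or_ge k 0 with hk | hk
    · rw [app_zs_neg p _ hk, Pi.single_eq_of_ne hk.ne]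
    obtain ⟨m, rfl⟩ := Int.eq_ofNat_of_zero_le hk
    have h1 := congrArg (PowerSeries.coeff m) h
    rw [PowerSeries.coeff_mul, Finset.Nat.sum_antidiagonal_eq_sum_range_succ
      (fun i j => PowerSeries.coeff i (p : PowerSeries Λ) * PowerSeries.coeff j S)] at h1
    rw [app_eq_sum p (Nat.le_add_left p.natDegree m), ← Finset.sum_subset
      (Finset.range_subset_range.2 (show m + 1 ≤ m + p.natDegree + 1 by omega)) fun i _ hi => by
        rw [zs_neg _ (by rw [Finset.mem_range] at hi; omega), smul_zero]]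
    have h2 : ∀ i ∈ Finset.range (m + 1),
        p.coeff i • zs (fun k => PowerSeries.coeff k S • c) ((m : ℤ) - i) =
          (PowerSeries.coeff i (p : PowerSeries Λ) * PowerSeries.coeff (m - i) S) • c := by
      intro i hi
      rw [← Nat.cast_sub (Nat.lt_succ_iff.1 (Finset.mem_range.1 hi)), zs_natCast, smul_smul,
        Polynomial.coeff_coe]
    rw [Finset.sum_congr rfl h2, ← Finset.sum_smul, h1, PowerSeries.coeff_one]
    split_ifs with h0
    · subst h0; simp
    · rw [zero_smul, Pi.single_eq_of_ne (by exact_mod_cast h0)]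
  rw [Tame, ev, key, finsum_eq_single _ 0 fun _ h => Pi.single_eq_of_ne h _, Pi.single_eq_same]
  exact ⟨finite_single _ _, rfl⟩

end Crest.Agent.N265.V
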