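import Crest.Agent.N265.Core

/-!
# Row 265, layer V: subquotients of graded modules and their classes (helper94)

`sq M A B` is the graded module `A / (A ⊓ B)` for stable submodules `A`, `B` of `M`;
`cq X M A B` its class in `G X`.
-/

set_option autoImplicit false
noncomputable section
open MvPolynomial

namespace Crest.Agent.N265.V

open GM

theorem exists_decomp (M : GM) (m : M.M) :
    ∃ c : D →₀ M.M, (∀ d, c d ∈ M.gr d) ∧ c.sum (fun _ x => x) = m := by
  have h := M.diag m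
  induction h using AddSubgroup.closure_induction with
  | mem x hx =>
    obtain ⟨d, hd⟩ := hx
    refine ⟨Finsupp.single d x, fun e => ?_, by simp⟩
    by_cases h : d = e
    · subst h; rw [Finsupp.single_eq_same]; exact hd
    · simp [h]
  | zero => exact ⟨0, fun _ => by simp, by simp⟩
  | add x y _ _ hx hy =>
    obtain ⟨c, hc, rfl⟩ := hx
    obtain ⟨c', hc', rfl⟩ := hy
    exact ⟨c + c', fun d => add_mem (hc d) (hc' d),
      Finsupp.sum_add_index' (fun _ => rfl) (fun _ _ _ => rfl)⟩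
  | neg x _ hx =>
    obtain ⟨c, hc, rfl⟩ := hx
    refine ⟨-c, fun d => neg_mem (hc d), ?_⟩
    rw [Finsupp.sum_neg_index (fun _ => rfl)]
    simp [Finsupp.sum]

theorem comp_mem {M : GM} {N : Submodule R M.M} (hN : M.Stab N) (s : Finset D) :
    ∀ c : D → M.M, (∀ d, c d ∈ M.gr d) → ∑ d ∈ s, c d ∈ N → ∀ d ∈ s, c d ∈ N := by
  classical
  induction s using Finset.induction_on with
  | empty => intro c _ _ d hd; simp at hd
  | insert e s he ih =>
    intro c hc hs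
    have h1 : ∑ d ∈ s, (chi d - chi e) • c d ∈ N := by
      have h2 := N.sub_mem (hN _ hs) (N.smul_mem (C (chi e) : R) hs)
      rw [map_sum, Finset.smul_sum, ← Finset.sum_sub_distrib, Finset.sum_insert he,
        mem_gr.1 (hc e), sub_self, zero_add] at h2
      convert h2 using 2 with d _
      rw [mem_gr.1 (hc d), c_smul, map_sub, sub_smul]
    have h3 : ∀ d ∈ s, c d ∈ N := fun d hd => by
      have h4 := ih (fun d => (chi d - chi e) • c d) (fun d => Submodule.smul_mem _ _ (hc d)) h1 d hd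
      have h5 : chi d - chi e ≠ 0 := sub_ne_zero.2 fun h => he (chi_inj h ▸ hd)
      have h6 := N.smul_mem (C (chi d - chi e)⁻¹ : R) h4
      rwa [← c_smul, smul_smul, inv_mul_cancel₀ h5, one_smul] at h6
    intro d hd
    rcases Finset.mem_insert.1 hd with rfl | hd
    · rw [Finset.sum_insert he] at hs
      simpa using N.sub_mem hs (N.sum_mem h3)
    · exact h3 d hd

/-- induction over the homogeneous elements of a stable submodule -/
theorem stab_induction {M : GM} {N : Submodule R M.M} (hN : M.Stab N) {P : M.M → Prop}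
    (h0 : P 0) (hadd : ∀ x ∈ N, ∀ y ∈ N, P x → P y → P (x + y))
    (hh : ∀ d, ∀ x ∈ M.gr d, x ∈ N → P x) : ∀ m ∈ N, P m := by
  intro m hm
  obtain ⟨c, hc, rfl⟩ := exists_decomp M m
  refine (Finset.sum_induction _ (fun x => x ∈ N ∧ P x)
    (fun x y hx hy => ⟨add_mem hx.1 hy.1, hadd x hx.1 y hy.1 hx.2 hy.2⟩) ⟨zero_mem _, h0⟩
    fun d hd => ?_).2
  exact ⟨comp_mem hN _ c hc hm d hd, hh d _ (hc d) (comp_mem hN _ c hc hm d hd)⟩

theorem stab_top (M : GM) : M.Stab ⊤ := fun _ _ => trivial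
theorem stab_bot (M : GM) : M.Stab ⊥ := fun m hm => by
  rw [Submodule.mem_bot] at *; rw [hm, map_zero]
theorem stab_sup {M : GM} {A B : Submodule R M.M} (hA : M.Stab A) (hB : M.Stab B) :
    M.Stab (A ⊔ B) := fun m hm => by
  obtain ⟨a, ha, b, hb, rfl⟩ := Submodule.mem_sup.1 hm
  rw [map_add]
  exact Submodule.add_mem_sup (hA a ha) (hB b hb)
theorem stab_inf {M : GM} {A B : Submodule R M.M} (hA : M.Stab A) (hB : M.Stab B) :
    M.Stab (A ⊓ B) := fun m hm => ⟨hA m hm.1, hB m hm.2⟩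
theorem stab_map {M N : GM} {f : M.M →ₗ[R] N.M} (hf : Deg0 f) {A : Submodule R M.M}
    (hA : M.Stab A) : N.Stab (A.map f) := by
  rintro _ ⟨a, ha, rfl⟩
  exact ⟨_, hA a ha, hf a⟩
theorem stab_comap {M N : GM} {f : M.M →ₗ[R] N.M} (hf : Deg0 f) {A : Submodule R N.M}
    (hA : N.Stab A) : M.Stab (A.comap f) := fun m hm => by
  rw [Submodule.mem_comap, hf m]; exact hA _ hm
theorem stab_smul {M : GM} {I : Ideal R} (hI : ∀ r ∈ I, gam r ∈ I) {A : Submodule R M.M}
    (hA : M.Stab A) : M.Stab (I • A) := fun m hm => by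
  refine Submodule.smul_induction_on hm (fun r hr a ha => ?_) (fun x y hx hy => ?_)
  · rw [LinearMap.map_smulₛₗ]; exact Submodule.smul_mem_smul (hI r hr) (hA a ha)
  · rw [map_add]; exact add_mem hx hy

theorem gam_pow {I : Ideal R} (hI : ∀ r ∈ I, gam r ∈ I) (k : ℕ) : ∀ r ∈ I ^ k, gam r ∈ I ^ k := by
  intro r hr
  have h : (I ^ k).map gam ≤ I ^ k := by
    rw [Ideal.map_pow]
    exact Ideal.pow_right_mono (Ideal.map_le_iff_le_comap.2 hI) k
  exact h (Ideal.mem_map_of_mem _ hr)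

theorem gam_span {ι : Type} {s : ι → R} {d : ι → D} (hs : ∀ i, Hmg (d i) (s i)) :
    ∀ r ∈ Ideal.span (Set.range s), gam r ∈ Ideal.span (Set.range s) := by
  intro r hr
  have h : (Ideal.span (Set.range s)).map gam ≤ Ideal.span (Set.range s) := by
    rw [Ideal.map_span, Ideal.span_le]
    rintro _ ⟨_, ⟨i, rfl⟩, rfl⟩
    rw [hs i]
    exact Ideal.mul_mem_left _ _ (Ideal.subset_span ⟨i, rfl⟩)
  exact h (Ideal.mem_map_of_mem _ hr)

theorem smul_mem_gr {M : GM} {d e : D} {r : R} {m : M.M} (hr : Hmg d r) (hm : m ∈ M.gr e) :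
    r • m ∈ M.gr (d + e) := by
  rw [mem_gr, LinearMap.map_smulₛₗ, hr, mem_gr.1 hm, chi_add, map_mul, smul_smul, smul_smul]
  congr 1; ring

/-- the subquotient `A / (A ⊓ B)` -/
def sq (M : GM) (A B : Submodule R M.M) (hA : M.Stab A) (hB : M.Stab B) : GM where
  M := A ⧸ B.submoduleOf A
  fin := by
    obtain ⟨V, hV⟩ := M.fin
    refine ⟨V, fun v hv m => ?_⟩
    induction m using Submodule.Quotient.induction_on with
    | H a =>
      rw [← Submodule.Quotient.mk_smul]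
      have : (X v : R) • a = 0 := Subtype.ext (hV v hv a)
      rw [this, Submodule.Quotient.mk_zero]
  g := Submodule.mapQ _ _ (M.g.restrict hA) fun a ha => hB _ ha
  diag := fun m => by
    induction m using Submodule.Quotient.induction_on with
    | H a =>
      obtain ⟨a, ha⟩ := a
      refine stab_induction hA (P := fun a => ∀ ha : a ∈ A, Submodule.Quotient.mk (⟨a, ha⟩ : A) ∈ _)
        (fun _ => zero_mem _) ?_ ?_ a ha ha
      · intro x hx y hy h1 h2 _
        exact add_mem (h1 hx) (h2 hy)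
      · intro d x hx _ hxA
        refine AddSubgroup.subset_closure ⟨d, ?_⟩
        exact congrArg (Submodule.Quotient.mk (p := B.submoduleOf A))
          (Subtype.ext hx : (⟨M.g x, hA x hxA⟩ : A) = (C (chi d) : R) • ⟨x, hxA⟩)

section sq
variable {M : GM} {A B : Submodule R M.M} {hA : M.Stab A} {hB : M.Stab B}

/-- the class of `a ∈ A` in `A / B` -/
def mkq (hA : M.Stab A) (hB : M.Stab B) : A →ₗ[R] (sq M A B hA hB).M := (B.submoduleOf A).mkQ

theorem mkq_surj : Function.Surjective (mkq hA hB) := Submodule.mkQ_surjective _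
theorem mkq_eq_zero {a : A} : mkq hA hB a = 0 ↔ (a : M.M) ∈ B := Submodule.Quotient.mk_eq_zero _
theorem mkq_eq {a b : A} : mkq hA hB a = mkq hA hB b ↔ (a : M.M) - b ∈ B := by
  rw [← sub_eq_zero, ← map_sub, mkq_eq_zero]; rfl
theorem g_mkq (a : A) : (sq M A B hA hB).g (mkq hA hB a) = mkq hA hB ⟨M.g a, hA _ a.2⟩ := rfl

/-- maps between subquotients induced by a linear map -/
def sqMap {N : GM} {A' B' : Submodule R N.M} (hA : M.Stab A) (hB : M.Stab B) (hA' : N.Stab A')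
    (hB' : N.Stab B') (f : M.M →ₗ[R] N.M) (h1 : ∀ a ∈ A, f a ∈ A') (h2 : ∀ a ∈ A, a ∈ B → f a ∈ B') :
    (sq M A B hA hB).M →ₗ[R] (sq N A' B' hA' hB').M :=
  Submodule.mapQ _ _ (f.restrict h1) fun a ha => h2 _ a.2 ha

theorem sqMap_mkq {N : GM} {A' B' : Submodule R N.M} {hA' : N.Stab A'} {hB' : N.Stab B'}
    (f : M.M →ₗ[R] N.M) (h1 : ∀ a ∈ A, f a ∈ A') (h2 : ∀ a ∈ A, a ∈ B → f a ∈ B') (a : A) :
    sqMap hA hB hA' hB' f h1 h2 (mkq hA hB a) = mkq hA' hB' ⟨f a, h1 _ a.2⟩ := rfl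

theorem sqMap_deg0 {N : GM} {A' B' : Submodule R N.M} {hA' : N.Stab A'} {hB' : N.Stab B'}
    {f : M.M →ₗ[R] N.M} (hf : Deg0 f) (h1 : ∀ a ∈ A, f a ∈ A')
    (h2 : ∀ a ∈ A, a ∈ B → f a ∈ B') : Deg0 (sqMap hA hB hA' hB' f h1 h2) := by
  intro m
  obtain ⟨a, rfl⟩ := mkq_surj (hA := hA) (hB := hB) m
  rw [g_mkq, sqMap_mkq, sqMap_mkq, g_mkq]
  congr 1
  exact Subtype.ext (hf a)

theorem degIn_of_surj {N P : GM} {f : N.M →ₗ[R] P.M} (hf : Deg0 f) (hs : Function.Surjective f)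
    {S : Finset ℕ} (h : N.DegIn S) : P.DegIn S := by
  intro d hd
  rw [eq_bot_iff]
  intro m hm
  obtain ⟨n, rfl⟩ := hs m
  obtain ⟨c, hc, rfl⟩ := exists_decomp N n
  classical
  have h1 : ∀ e, f (c e) ∈ P.gr e := fun e => by
    rw [mem_gr, ← hf, mem_gr.1 (hc e), map_smul]
  have hcd : c d = 0 := by
    have := hc d
    rwa [h d hd, Submodule.mem_bot] at this
  have h3 : ∑ e ∈ insert d c.support, (f (c e) - if e = d then f (c.sum fun _ x => x) else 0) ∈
      (⊥ : Submodule R P.M) := by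
    have hd' : d ∉ c.support := by simp [hcd]
    rw [Finset.sum_sub_distrib, Finset.sum_ite_eq', if_pos (Finset.mem_insert_self _ _),
      Finset.sum_insert hd', hcd, map_zero, zero_add, Finsupp.sum, map_sum, sub_self]
    exact zero_mem _
  have h4 := comp_mem (stab_bot P) _ _ (fun e => ?_) h3 d (Finset.mem_insert_self _ _)
  · simpa [hcd] using h4
  · split_ifs with he
    · subst he; exact sub_mem (h1 _) hm
    · simpa using h1 e

theorem degIn_of_inj {N P : GM} {f : N.M →ₗ[R] P.M} (hf : Deg0 f) (hs : Function.Injective f)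
    {S : Finset ℕ} (h : P.DegIn S) : N.DegIn S := by
  intro d hd
  rw [eq_bot_iff]
  intro m hm
  have h1 : f m ∈ P.gr d := by rw [mem_gr, ← hf, mem_gr.1 hm, map_smul]
  rw [h d hd, Submodule.mem_bot] at h1
  exact (Submodule.mem_bot _).2 (hs (h1.trans (map_zero f).symm))

theorem degIn_sq {S : Finset ℕ} (h : M.DegIn S) : (sq M A B hA hB).DegIn S := by
  have h1 : (sq M A ⊥ hA (stab_bot M)).DegIn S := by
    let f : (sq M A ⊥ hA (stab_bot M)).M →ₗ[R] M.M :=
      Submodule.liftQ _ A.subtype fun a ha => ha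
    refine degIn_of_inj (f := f) (fun m => ?_) ?_ h
    · obtain ⟨a, rfl⟩ := mkq_surj (hA := hA) (hB := stab_bot M) m
      rfl
    · rw [injective_iff_map_eq_zero]
      intro m hm
      obtain ⟨a, rfl⟩ := mkq_surj (hA := hA) (hB := stab_bot M) m
      exact mkq_eq_zero.2 hm
  refine degIn_of_surj (f := sqMap hA (stab_bot M) hA hB LinearMap.id (fun _ h => h)
    fun a _ ha => ?_) (sqMap_deg0 (fun _ => rfl) _ _) (fun m => ?_) h1
  · rw [Submodule.mem_bot] at ha
    rw [ha]; exact zero_mem _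
  · obtain ⟨a, rfl⟩ := mkq_surj (hA := hA) (hB := hB) m
    exact ⟨mkq _ _ a, rfl⟩

theorem kill_sq {x : Pt} : (sq M A B hA hB).Kill x ↔ ∃ r : R, eval x r ≠ 0 ∧ ∀ a ∈ A, r • a ∈ B := by
  refine exists_congr fun r => and_congr_right fun _ => ⟨fun h a ha => ?_, fun h m => ?_⟩
  · have := h (mkq hA hB ⟨a, ha⟩)
    rwa [← map_smul, mkq_eq_zero] at this
  · obtain ⟨a, rfl⟩ := mkq_surj (hA := hA) (hB := hB) m
    rw [← map_smul, mkq_eq_zero]
    exact h a a.2
end sq

/-- `A / B` is supported on `X` -/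
def Sup (X : Spc) (M : GM) (A B : Submodule R M.M) : Prop :=
  ∀ x, Rel X.B x → x ∉ X.pts → ∃ r : R, eval x r ≠ 0 ∧ ∀ a ∈ A, r • a ∈ B

theorem Sup.mono {X : Spc} {M : GM} {A B A' B' : Submodule R M.M} (h : Sup X M A B) (hA : A' ≤ A)
    (hB : B ≤ B') : Sup X M A' B' := fun x h1 h2 => by
  obtain ⟨r, hr, h3⟩ := h x h1 h2
  exact ⟨r, hr, fun a ha => hB (h3 a (hA ha))⟩

theorem sup_of_on {X : Spc} {M : GM} (h : M.On X) (A B : Submodule R M.M) : Sup X M A B :=
  fun x h1 h2 => by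
    obtain ⟨r, hr, h3⟩ := h.supp x h1 h2
    exact ⟨r, hr, fun a _ => by rw [h3]; exact zero_mem _⟩

theorem on_sq {X : Spc} {M : GM} {A B : Submodule R M.M} {hA : M.Stab A} {hB : M.Stab B}
    (hd : M.DegIn X.B) (h : Sup X M A B) : (sq M A B hA hB).On X :=
  ⟨degIn_sq hd, fun x h1 h2 => kill_sq.2 (h x h1 h2)⟩

/-! ### classes -/

theorem cl_pos {X : Spc} {A : GM} (hA : A.On X) : cl X A =
    (QuotientAddGroup.mk (FreeAbelianGroup.of ⟨A, hA⟩) : _ ⧸ AddSubgroup.closure (GRel X)) :=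
  dif_pos hA
theorem cl_neg {X : Spc} {A : GM} (hA : ¬ A.On X) : cl X A = 0 := dif_neg hA

theorem cl_ses {X : Spc} {A B C : GM} (hA : A.On X) (hB : B.On X) (hC : C.On X)
    (h : GM.SES A B C) : cl X B = cl X A + cl X C := by
  rw [cl_pos hA, cl_pos hB, cl_pos hC]
  have : (QuotientAddGroup.mk (FreeAbelianGroup.of ⟨B, hB⟩ - FreeAbelianGroup.of ⟨A, hA⟩
      - FreeAbelianGroup.of ⟨C, hC⟩) : _ ⧸ AddSubgroup.closure (GRel X)) = 0 :=
    (QuotientAddGroup.eq_zero_iff _).2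
      (AddSubgroup.subset_closure (Or.inl ⟨⟨A, hA⟩, ⟨B, hB⟩, ⟨C, hC⟩, h, rfl⟩))
  rw [QuotientAddGroup.mk_sub, QuotientAddGroup.mk_sub, sub_sub, sub_eq_zero] at this
  exact this

theorem cl_irr {X : Spc} {A : GM} (h : A.Irr X) : cl X A = 0 := by
  by_cases hA : A.On X
  · rw [cl_pos hA]
    exact (QuotientAddGroup.eq_zero_iff (N := AddSubgroup.closure (GRel X)) _).2
      (AddSubgroup.subset_closure (Or.inr ⟨⟨A, hA⟩, h, rfl⟩))
  · exact cl_neg hA

open Classical in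
/-- the class of `A / B` -/
def cq (X : Spc) (M : GM) (A B : Submodule R M.M) : G X :=
  if h : M.Stab A ∧ M.Stab B then cl X (sq M A B h.1 h.2) else 0

theorem cq_eq {X : Spc} {M : GM} {A B : Submodule R M.M} (hA : M.Stab A) (hB : M.Stab B) :
    cq X M A B = cl X (sq M A B hA hB) := dif_pos ⟨hA, hB⟩

theorem cq_irr {X : Spc} {M : GM} {A B : Submodule R M.M}
    (h : ∀ x ∈ X.pts, ∃ r : R, eval x r ≠ 0 ∧ ∀ a ∈ A, r • a ∈ B) : cq X M A B = 0 := by
  unfold cq
  split_ifs with h'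
  · exact cl_irr fun x hx => kill_sq.2 (h x hx)
  · rfl

theorem cq_of_le {X : Spc} {M : GM} {A B : Submodule R M.M} (h : A ≤ B) : cq X M A B = 0 :=
  cq_irr fun _ _ => ⟨1, by simp, fun a ha => by simpa using h ha⟩

theorem cq_add {X : Spc} {M : GM} {A B C : Submodule R M.M} (hA : M.Stab A) (hB : M.Stab B)
    (hC : M.Stab C) (hBA : B ≤ A) (hCB : C ≤ B) (hd : M.DegIn X.B) (h : Sup X M A C) :
    cq X M A C = cq X M B C + cq X M A B := by
  rw [cq_eq hA hC, cq_eq hB hC, cq_eq hA hB]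
  refine cl_ses (on_sq hd (h.mono hBA le_rfl)) (on_sq hd h) (on_sq hd (h.mono le_rfl hCB))
    ⟨sqMap hB hC hA hC LinearMap.id (fun _ h => hBA h) fun _ _ h => h,
     sqMap hA hC hA hB LinearMap.id (fun _ h => h) fun _ _ h => hCB h,
     sqMap_deg0 (fun _ => rfl) _ _, sqMap_deg0 (fun _ => rfl) _ _, ?_, ?_, ?_⟩
  · rw [injective_iff_map_eq_zero]
    intro m hm
    obtain ⟨a, rfl⟩ := mkq_surj (hA := hB) (hB := hC) m
    rw [sqMap_mkq, mkq_eq_zero] at hm
    exact mkq_eq_zero.2 hm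
  · intro m
    obtain ⟨a, rfl⟩ := mkq_surj (hA := hA) (hB := hC) m
    rw [sqMap_mkq, mkq_eq_zero]
    constructor
    · intro h1
      exact ⟨mkq hB hC ⟨a, h1⟩, rfl⟩
    · rintro ⟨m, hm⟩
      obtain ⟨b, rfl⟩ := mkq_surj (hA := hB) (hB := hC) m
      rw [sqMap_mkq, mkq_eq] at hm
      have := B.sub_mem b.2 (hCB hm)
      simpa using this
  · intro m
    obtain ⟨a, rfl⟩ := mkq_surj (hA := hA) (hB := hB) m
    exact ⟨mkq hA hC a, rfl⟩

theorem on_of_locSurj {X : Spc} {A B : GM} (hA : A.On X) (f : A.M →ₗ[R] B.M) (hd : B.DegIn X.B)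
    (hs : Function.Surjective f) : B.On X :=
  ⟨hd, fun x h1 h2 => by
    obtain ⟨r, hr, h3⟩ := hA.supp x h1 h2
    refine ⟨r, hr, fun b => ?_⟩
    obtain ⟨a, rfl⟩ := hs b
    rw [← map_smul, h3, map_zero]⟩

/-- bijective maps of degree zero preserve the class -/
theorem cl_bij {X : Spc} {A B : GM} (f : A.M →ₗ[R] B.M) (hf : Deg0 f)
    (hb : Function.Bijective f) : cl X A = cl X B := by
  by_cases hA : A.On X
  · have hB : B.On X := on_of_locSurj hA f (degIn_of_surj hf hb.2 hA.deg) hb.2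
    have h0 : (sq B ⊤ ⊤ (stab_top B) (stab_top B)).Irr X := fun x _ =>
      kill_sq.2 ⟨1, by simp, fun _ _ => trivial⟩
    have := cl_ses hA hB (on_sq hB.deg (sup_of_on hB ⊤ ⊤)) (C := sq B ⊤ ⊤ (stab_top B) (stab_top B))
      ⟨f, 0, hf, fun _ => by simp, hb.1, fun m => by simpa using hb.2 m, fun m => by
        obtain ⟨a, rfl⟩ := mkq_surj (hA := stab_top B) (hB := stab_top B) m
        exact ⟨0, (mkq_eq_zero.2 Submodule.mem_top).symm⟩⟩
    rw [this, cl_irr h0, add_zero]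
  · have hB : ¬ B.On X := fun hB => hA ⟨degIn_of_inj hf hb.1 hB.deg, fun x h1 h2 => by
      obtain ⟨r, hr, h3⟩ := hB.supp x h1 h2
      exact ⟨r, hr, fun a => hb.1 (by rw [map_smul, h3, map_zero])⟩⟩
    rw [cl_neg hA, cl_neg hB]

theorem cq_top_bot (X : Spc) (M : GM) : cq X M ⊤ ⊥ = cl X M := by
  rw [cq_eq (stab_top M) (stab_bot M)]
  refine (cl_bij (mkq (stab_top M) (stab_bot M) ∘ₗ (Submodule.topEquiv.symm.toLinearMap))
    (fun _ => rfl) ⟨?_, fun m => ?_⟩).symm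
  · rw [injective_iff_map_eq_zero]
    intro m hm
    exact mkq_eq_zero.1 hm
  · obtain ⟨a, rfl⟩ := mkq_surj (hA := stab_top M) (hB := stab_bot M) m
    exact ⟨a, rfl⟩

/-- transport of subquotients along a map of degree zero -/
theorem cq_map {X : Spc} {M N : GM} {f : M.M →ₗ[R] N.M} (hf : Deg0 f) {A B : Submodule R M.M}
    {A' B' : Submodule R N.M} (hA : M.Stab A) (hB : M.Stab B) (hA' : N.Stab A') (hB' : N.Stab B')
    (h1 : ∀ a ∈ A, f a ∈ A') (h2 : ∀ a ∈ A, a ∈ B ↔ f a ∈ B')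
    (h3 : ∀ a' ∈ A', ∃ a ∈ A, f a - a' ∈ B') : cq X M A B = cq X N A' B' := by
  rw [cq_eq hA hB, cq_eq hA' hB']
  refine cl_bij (sqMap hA hB hA' hB' f h1 fun a ha => (h2 a ha).1) (sqMap_deg0 hf _ _) ⟨?_, ?_⟩
  · rw [injective_iff_map_eq_zero]
    intro m hm
    obtain ⟨a, rfl⟩ := mkq_surj (hA := hA) (hB := hB) m
    rw [sqMap_mkq, mkq_eq_zero] at hm
    exact mkq_eq_zero.2 ((h2 a a.2).2 hm)
  · intro m
    obtain ⟨a', rfl⟩ := mkq_surj (hA := hA') (hB := hB') m
    obtain ⟨a, ha, h4⟩ := h3 a' a'.2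
    exact ⟨mkq hA hB ⟨a, ha⟩, by rw [sqMap_mkq, mkq_eq]; exact h4⟩

/-- a map of degree zero that is bijective near every point of `X` preserves the class -/
theorem cl_loc {X : Spc} {A B : GM} (hA : A.On X) (hB : B.On X) (f : A.M →ₗ[R] B.M) (hf : Deg0 f)
    (h : ∀ x ∈ X.pts, ∃ r : R, eval x r ≠ 0 ∧ (∀ a, f a = 0 → r • a = 0) ∧
      ∀ b, ∃ a, f a = r • b) : cl X A = cl X B := by
  have hk : A.Stab (LinearMap.ker f) := stab_comap hf (stab_bot B)
  have hr : B.Stab (LinearMap.range f) := by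
    rw [LinearMap.range_eq_map]; exact stab_map hf (stab_top A)
  rw [← cq_top_bot X A, ← cq_top_bot X B,
    cq_add (stab_top A) hk (stab_bot A) le_top bot_le hA.deg (sup_of_on hA _ _),
    cq_add (stab_top B) hr (stab_bot B) le_top bot_le hB.deg (sup_of_on hB _ _),
    cq_irr (A := LinearMap.ker f), cq_irr (A := ⊤) (B := LinearMap.range f), zero_add, add_zero]
  · exact cq_map hf (stab_top A) hk hr (stab_bot B) (fun a _ => ⟨a, rfl⟩) (fun _ _ => Iff.rfl)
      (by rintro _ ⟨a, rfl⟩; exact ⟨a, trivial, by simp⟩)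
  · intro x hx
    obtain ⟨r, h1, _, h3⟩ := h x hx
    exact ⟨r, h1, fun b _ => h3 b⟩
  · intro x hx
    obtain ⟨r, h1, h2, _⟩ := h x hx
    exact ⟨r, h1, fun a ha => h2 a ha⟩

end Crest.Agent.N265.V
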