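import Crest.Agent.N265.K.Tan
import Crest.Agent.N265.Jac.Jac
import Crest.Agent.N265.V.Sq
import Crest.Agent.N265.V.Ev

/-! # Row 265, layer V: definitions -/

set_option autoImplicit false
noncomputable section
open MvPolynomial Module

namespace Crest.Agent.N265.V
open GM

/-- the differential of a family of polynomials -/
def dS (x : Pt) {ι : Type} (s : ι → R) : Pt →ₗ[ℂ] (ι → ℂ) := LinearMap.pi fun i => Jac.dL x (s i)
lemma dS_apply (x : Pt) {ι : Type} (s : ι → R) (ξ : Pt) (i : ι) : dS x s ξ i = dAt x ξ (s i) := rfl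
lemma mem_ker_dS {x : Pt} {ι : Type} {s : ι → R} {ξ : Pt} :
    ξ ∈ LinearMap.ker (dS x s) ↔ ∀ i, dAt x ξ (s i) = 0 := funext_iff
/-- `T`-fixed directions at points of block weights `w` -/
def fixS (w : ℕ → ℤ) : Submodule ℂ Pt := Bun.suppOn fun v : Var => v.2.2 = w v.1
lemma mem_fixS {w : ℕ → ℤ} {ξ : Pt} : ξ ∈ fixS w ↔ ∀ v : Var, v.2.2 ≠ w v.1 → ξ v = 0 := Iff.rfl
/-- the ideal of a section -/
def sI {ι : Type} (s : ι → R) : Ideal R := Ideal.span (Set.range s)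
lemma mem_sI {ι : Type} (s : ι → R) (i : ι) : s i ∈ sI s := Ideal.subset_span ⟨i, rfl⟩
/-- `I^k M` -/
def ipw (I : Ideal R) (M : GM) (k : ℕ) : Submodule R M.M := I ^ k • ⊤
/-- the classes of `I^k M / I^(k+1) M` -/
def grs (Q : Spc) (I : Ideal R) (M : GM) : ℤ → G Q :=
  zs fun k => cq Q M (ipw I M k) (ipw I M (k + 1))

/-- the cone of `s` on `W` lies in `E` over the points of `X` -/
structure Syz (W X : Spc) (E : Bun X) (s : E.ι → R) : Prop where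
  sub : X.Sub W
  hmg : ∀ i, Hmg (E.deg i) (s i)
  syz : ∀ x ∈ X.pts, ∀ a : E.ι → ℂ, (∀ v ∈ E.L x, ∑ i, a i * v i = 0) →
    ∃ μ : E.ι → R, (∀ i, eval x (μ i) = a i) ∧ ∑ i, μ i * s i ∈ W.I
lemma _root_.Crest.Agent.N265.Cone.toSyz {W Q : Spc} {E : Bun Q} {s : E.ι → R} (h : Cone W Q E s) :
    Syz W Q E s := ⟨h.sub, h.hmg, h.syz⟩

/-- a graded submodule `⊕ A k T^k` of the Rees module -/
structure Sys (M : GM) (I : Ideal R) (A : ℕ → Submodule R M.M) : Prop where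
  stab : ∀ k, M.Stab (A k)
  le : ∀ k, A k ≤ ipw I M k
  mul : ∀ k, ∀ r ∈ I, ∀ a ∈ A k, r • a ∈ A (k + 1)

/-- `Z` is the scheme-theoretic zero set of `s` on `W`, and both are smooth along `Z` -/
structure Reg (W Z : Spc) {ι : Type} (s : ι → R) : Prop where
  sub : Z.Sub W
  zero : ∀ x ∈ W.pts, x ∈ Z.pts ↔ ∀ i, eval x (s i) = 0
  sm : ∀ z ∈ Z.pts, W.SmAt z
  tan : ∀ z ∈ Z.pts,
    (finrank ℂ (W.Tan z ⊓ LinearMap.ker (dS z s) : Submodule ℂ Pt) : ℕ∞) ≤ Z.ldim z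

end Crest.Agent.N265.V
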