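import Crest.Agent.N265.V.Cone

/-! # Row 265, layer V, task V3: bundles act on subquotients -/

set_option autoImplicit false
noncomputable section
open MvPolynomial Module

namespace Crest.Agent.N265.V
open GM
variable {W Z : Spc} {M : GM}

/-- `N^ι` inside `⊕ M(deg i)` -/
def pis {ι : Type} [Fintype ι] (deg : ι → D) (M : GM) (N : Submodule R M.M) :
    Submodule R (GM.pw deg M).M := Submodule.pi Set.univ fun _ : ι => N
lemma mem_pis {ι : Type} [Fintype ι] {deg : ι → D} {N : Submodule R M.M} {u : (GM.pw deg M).M} :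
    u ∈ pis deg M N ↔ ∀ i, (u : ι → M.M) i ∈ N :=
  ⟨fun h i => h i trivial, fun h i _ => h i⟩
lemma stab_pis {ι : Type} [Fintype ι] (deg : ι → D) {N : Submodule R M.M} (hN : M.Stab N) :
    (GM.pw deg M).Stab (pis deg M N) := fun _ hu i _ => N.smul_mem _ (hN _ (hu i trivial))
lemma ipw_pw {ι : Type} [Fintype ι] (deg : ι → D) (I : Ideal R) (M : GM) (k : ℕ) :
    ipw I (GM.pw deg M) k = pis deg M (ipw I M k) := by
  classical
  refine le_antisymm (Submodule.smul_le.2 fun r hr u _ i _ => smul_mem_ipw hr _) fun u hu => ?_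
  rw [← Finset.univ_sum_single (show ι → M.M from u)]
  exact sum_mem fun i _ => map_ipw_le (N := GM.pw deg M) (LinearMap.single R (fun _ => M.M) i) k
    ⟨_, hu i trivial, rfl⟩
lemma sup_pis {ι : Type} [Fintype ι] (deg : ι → D) {N P : Submodule R M.M} (h : Sup Z M N P)
    (S : Submodule R (GM.pw deg M).M) : Sup Z (GM.pw deg M) (S ⊓ pis deg M N) (S ⊓ pis deg M P) :=
  fun x h1 h2 => (h x h1 h2).imp fun r hr =>
    ⟨hr.1, fun _ ha => ⟨S.smul_mem r ha.1, fun i _ => hr.2 _ (ha.2 i trivial)⟩⟩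
lemma deg0_compLeft {ι : Type} [Fintype ι] (deg : ι → D) {N : GM} {f : M.M →ₗ[R] N.M}
    (hf : Deg0 f) : Deg0 (M := GM.pw deg M) (N := GM.pw deg N) (f.compLeft ι) :=
  fun u => funext fun i =>
    (f.map_smul (C (chi (-deg i)) : R) (M.g (u i))).trans (congrArg _ (hf (u i)))
/-- The case where `T = sq M N P` is a module over the reduced `Z`. Both the image of
`A.actSub M ⊓ N^ι` and `(A.pull _).actSub T` lie in `A.actSub T` and agree with it locally: for the
local projector `(r, Φ)` of `A.alg`, `r u = Φ u` on `A.actSub T` (`Bun.mat_act_eq_zero` for `Φ - r`)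
and `Bun.mat_mem_act`. Then `cl_loc`, `kl_smul`. -/
theorem act_sq_red (hZ : Z.Sub W) (A : Bun W) (hM : M.Red W) {N P : Submodule R M.M}
    (hN : M.Stab N) (hP : M.Stab P) (hPN : P ≤ N) (hS : ∀ r ∈ Z.I, ∀ a ∈ N, r • a ∈ P) :
    cq Z (GM.pw A.deg M) (A.actSub M ⊓ pis A.deg M N) (A.actSub M ⊓ pis A.deg M P) =
      (A.pull hZ.proj).kl • cq Z M N P := by
  have hd : M.DegIn Z.B := hZ.1 ▸ hM.deg
  have hA : ∀ i, A.deg i ∈ DS Z.B := (A.pull hZ.proj).hdeg
  set T := sq M N P hN hP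
  have hT : T.Red Z := ⟨degIn_sq hd, fun r hr m => by
    obtain ⟨a, rfl⟩ := mkq_surj (hA := hN) (hB := hP) m
    rw [← map_smul, mkq_eq_zero]
    exact hS r hr a a.2⟩
  have hTw := (hT.pw hA).on
  have hK : (M.sub N hN).Stab (P.comap N.subtype) := stab_comap (deg0_subtype hN) hP
  have hK' := stab_inf (A.stab_actSub (M.sub N hN)) (stab_pis A.deg hK)
  have e : ∀ y ∈ Z.pts, (A.pull hZ.proj).L y = A.L y := fun y hy =>
    congrArg A.L (W.restr_eq (hZ.2 hy))
  rw [cq_eq hN hP, kl_smul _ hT, Bun.act, ← cq_sub]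
  refine (cq_map (deg0_compLeft A.deg (deg0_subtype hN)) (A.stab_actSub _) hK'
    (stab_inf (A.stab_actSub M) (stab_pis _ hN)) (stab_inf (A.stab_actSub M) (stab_pis _ hP))
    (fun a ha => ⟨Bun.Act.lin (N := N) ha N.subtype, fun i _ => (a i).2⟩)
    (fun a ha => ⟨fun h => ⟨Bun.Act.lin (N := N) ha N.subtype, h.2⟩, fun h => ⟨ha, h.2⟩⟩)
    fun a ha => ⟨fun i => ⟨a i, ha.2 i trivial⟩, Bun.Act.of_inj (N' := M.M) (f := N.subtype)
      Subtype.val_injective ha.1,
      show a - a ∈ _ from (sub_self a).symm ▸ zero_mem _⟩).symm.trans ?_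
  refine (cq_loc (N := GM.pw A.deg T) (A' := A.actSub T) (B' := ⊥)
    (deg0_compLeft A.deg (M := M.sub N hN) (f := mkq hN hP) fun _ => rfl) (A.stab_actSub _) hK'
    (A.stab_actSub T) (stab_bot _) ((degIn_of_inj (deg0_subtype hN) Subtype.val_injective hd).pw hA)
    hTw.deg (fun x h1 h2 => ?_) (sup_of_on hTw _ _)
    (fun a ha => Bun.Act.lin (N := N) ha (mkq hN hP))
    (fun a _ h => funext fun i => mkq_eq_zero.2 (h.2 i trivial)) fun x hx => ?_).trans
    (cq_loc (f := LinearMap.id) (fun _ => rfl) ((A.pull hZ.proj).stab_actSub T) (stab_bot _)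
      (A.stab_actSub T) (stab_bot _) hTw.deg hTw.deg (sup_of_on hTw _ _) (sup_of_on hTw _ _)
      (fun a ha b hb => ha b fun y hy v hv => hb y (hZ.2 hy) v (e y hy ▸ hv)) (fun _ _ h => h)
      fun x hx => ?_).symm
  · by_contra hc
    refine h2 (Z.closed x h1 fun r hr => by_contra fun h0 => hc ⟨r, h0, fun a ha => ?_⟩)
    exact ⟨Submodule.smul_mem _ r ha, fun i _ => hS r hr _ (a i).2⟩
  · obtain ⟨r, Φ, hr, h1, h2⟩ := A.exists_proj (hZ.2 hx)
    refine ⟨r, hr, fun a ha h => Submodule.smul_mem _ r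
      ⟨ha, fun i _ => mkq_eq_zero.1 (congrFun h i)⟩, fun c hc => ?_⟩
    choose w hw using fun i => mkq_surj (hA := hN) (hB := hP) (c i)
    refine ⟨mv Φ w, A.act_mv (hM.sub hN).ann h1 w, sub_eq_zero.2 (funext fun i => ?_)⟩
    refine (map_mv (mkq hN hP) Φ w i).trans ?_
    rw [funext hw]
    exact congrFun (Bun.Act.mv_eq_smul (N := T.M) hc h2) i
  · obtain ⟨r, Φ, hr, h1, h2⟩ := A.exists_proj (hZ.2 hx)
    exact ⟨r, hr, fun a _ h => Submodule.smul_mem _ r h, fun c hc => ⟨mv (N := T.M) Φ c,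
      (A.pull hZ.proj).act_mv hT.ann (fun y hy v => e y hy ▸ h1 y (hZ.2 hy) v) c,
      sub_eq_zero.2 (Bun.Act.mv_eq_smul (N := T.M) hc h2)⟩⟩
/-- General case: filter `N` by `N j = Z.I^j N + P`; `N n / P` is irrelevant on `Z` for large `n`
(`GM.On.exists_pow` for `sq M N P`); `cq_add`, `cq_irr`, induction on `n`. -/
theorem act_sq (hZ : Z.Sub W) (A : Bun W) (hM : M.Red W) {N P : Submodule R M.M}
    (hN : M.Stab N) (hP : M.Stab P) (hPN : P ≤ N) (hS : Sup Z M N P) :
    cq Z (GM.pw A.deg M) (A.actSub M ⊓ pis A.deg M N) (A.actSub M ⊓ pis A.deg M P) =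
      (A.pull hZ.proj).kl • cq Z M N P := by
  have hd : M.DegIn Z.B := hZ.1 ▸ hM.deg
  obtain ⟨n, hn⟩ := (on_sq (hA := hN) (hB := hP) hd hS).exists_pow
  replace hn : ∀ x ∈ Z.pts, ∃ r : R, eval x r ≠ 0 ∧ ∀ m ∈ Z.I ^ n • N, r • m ∈ P := fun x hx =>
    (hn x hx).imp fun r hr => ⟨hr.1, fun m hm => Submodule.smul_induction_on hm
      (fun c hc b hb => by
        have := hr.2 _ (Submodule.smul_mem_smul hc (Submodule.mem_top (x := mkq hN hP ⟨b, hb⟩)))
        rwa [← map_smul, ← map_smul, mkq_eq_zero] at this)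
      fun a b ha hb => by rw [smul_add]; exact add_mem ha hb⟩
  induction n generalizing N with
  | zero =>
    simp only [pow_zero, one_smul] at hn
    rw [cq_irr hn, smul_zero]
    exact cq_irr fun x hx => (hn x hx).imp fun r hr => ⟨hr.1, fun a ha =>
      ⟨Submodule.smul_mem _ r ha.1, fun i _ => hr.2 _ (ha.2 i trivial)⟩⟩
  | succ n ih =>
    have hN' : M.Stab (Z.I • N ⊔ P) := stab_sup (stab_smul (fun _ => Z.gam_mem_I) hN) hP
    have h1 : Z.I • N ⊔ P ≤ N := sup_le Submodule.smul_le_right hPN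
    have st : ∀ {S}, M.Stab S → (GM.pw A.deg M).Stab (A.actSub M ⊓ pis A.deg M S) := fun h =>
      stab_inf (A.stab_actSub M) (stab_pis _ h)
    have mo : ∀ {S S'}, S ≤ S' → A.actSub M ⊓ pis A.deg M S ≤ A.actSub M ⊓ pis A.deg M S' :=
      fun h _ ha => ⟨ha.1, fun i _ => h (ha.2 i trivial)⟩
    rw [cq_add hN hN' hP h1 le_sup_right hd hS, smul_add, cq_add (st hN) (st hN') (st hP) (mo h1)
      (mo le_sup_right) (hd.pw (A.pull hZ.proj).hdeg) (sup_pis _ hS _),
      act_sq_red hZ A hM hN hN' h1 fun r hr a ha =>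
        Submodule.mem_sup_left (Submodule.smul_mem_smul hr ha),
      ih hN' le_sup_right (hS.mono h1 le_rfl) fun x hx => (hn x hx).imp fun r hr =>
        ⟨hr.1, fun m hm => ?_⟩]
    rw [Submodule.smul_sup, ← Submodule.mul_smul, ← pow_succ] at hm
    obtain ⟨a, ha, b, hb, rfl⟩ := Submodule.mem_sup.1 hm
    rw [smul_add]
    exact add_mem (hr.2 a ha) (P.smul_mem r (Submodule.smul_le_right hb))

end Crest.Agent.N265.V
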