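import Crest.Agent.N265.V.Defs

/-! # Row 265, layer V, task V2: powers of an ideal, the syzygy condition, uniform re-embedding -/

set_option autoImplicit false
noncomputable section
open MvPolynomial Module

namespace Crest.Agent.N265.V
open GM
variable {W W' X X' Q Q' : Spc} {M : GM} {I : Ideal R}

lemma ipw_zero (I : Ideal R) (M : GM) : ipw I M 0 = ⊤ := by simp [ipw]
lemma ipw_succ (I : Ideal R) (M : GM) (k : ℕ) : ipw I M (k + 1) = I • ipw I M k := by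
  rw [ipw, ipw, pow_succ', Submodule.mul_smul]
lemma ipw_succ_le (I : Ideal R) (M : GM) (k : ℕ) : ipw I M (k + 1) ≤ ipw I M k :=
  ipw_succ I M k ▸ Submodule.smul_le_right
lemma smul_mem_ipw {r : R} {k : ℕ} (hr : r ∈ I ^ k) (m : M.M) : r • m ∈ ipw I M k :=
  Submodule.smul_mem_smul hr trivial
lemma stab_ipw (hI : ∀ r ∈ I, gam r ∈ I) (M : GM) (k : ℕ) : M.Stab (ipw I M k) :=
  stab_smul (gam_pow hI k) (stab_top M)
lemma map_ipw {N : GM} (f : M.M →ₗ[R] N.M) (hf : Function.Surjective f) (k : ℕ) :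
    (ipw I M k).map f = ipw I N k := by
  rw [ipw, Submodule.map_smul'', Submodule.map_top, LinearMap.range_eq_top.2 hf, ipw]
lemma map_ipw_le {N : GM} (f : M.M →ₗ[R] N.M) (k : ℕ) : (ipw I M k).map f ≤ ipw I N k := by
  rw [ipw, Submodule.map_smul'']
  exact Submodule.smul_mono le_rfl le_top
lemma smul_mem_ipw_succ {r : R} {k : ℕ} (hr : r ∈ I) {m : M.M} (hm : m ∈ ipw I M k) :
    r • m ∈ ipw I M (k + 1) := ipw_succ I M k ▸ Submodule.smul_mem_smul hr hm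
lemma sys_ipw (hI : ∀ r ∈ I, gam r ∈ I) (M : GM) : Sys M I (ipw I M) :=
  ⟨stab_ipw hI M, fun _ => le_rfl, fun _ _ hr _ => smul_mem_ipw_succ hr⟩
lemma sys_ipw_succ (hI : ∀ r ∈ I, gam r ∈ I) (M : GM) : Sys M I fun k => ipw I M (k + 1) :=
  ⟨fun _ => stab_ipw hI M _, ipw_succ_le I M, fun _ _ hr _ => smul_mem_ipw_succ hr⟩
lemma sys_bot (M : GM) (I : Ideal R) : Sys M I fun _ => ⊥ :=
  ⟨fun _ => stab_bot M, fun _ => bot_le, fun _ r _ _ => Submodule.smul_mem _ r⟩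
lemma Sys.inf {A : ℕ → Submodule R M.M} (h : Sys M I A) {N : Submodule R M.M} (hN : M.Stab N) :
    Sys M I fun k => N ⊓ A k :=
  ⟨fun k => stab_inf hN (h.stab k), fun k => inf_le_right.trans (h.le k),
    fun k r hr a ha => ⟨N.smul_mem r ha.1, h.mul k r hr a ha.2⟩⟩
/-- the powers `I^k N` of a graded submodule, seen in the big module -/
lemma sys_map (hI : ∀ r ∈ I, gam r ∈ I) {N : GM} {f : N.M →ₗ[R] M.M} (hf : Deg0 f) :
    Sys M I fun k => (ipw I N k).map f :=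
  ⟨fun k => stab_map hf (stab_ipw hI N k), map_ipw_le f, by
    rintro k r hr _ ⟨a, ha, rfl⟩
    exact ⟨_, smul_mem_ipw_succ hr ha, map_smul f r a⟩⟩
/-- subquotients killed by a power of the ideal are supported on the zero set -/
lemma sup_of_pow {ι : Type} {s : ι → R} (hQ : Q.Sub W)
    (hz : ∀ x ∈ W.pts, (∀ i, eval x (s i) = 0) → x ∈ Q.pts) (hM : M.On W) {A B : Submodule R M.M}
    {k : ℕ} (h : ∀ r ∈ sI s ^ k, ∀ a ∈ A, r • a ∈ B) : Sup Q M A B := by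
  intro x h1 h2
  by_cases hx : x ∈ W.pts
  · obtain ⟨i, hi⟩ := not_forall.1 (mt (hz x hx) h2)
    exact ⟨s i ^ k, by rw [map_pow]; exact pow_ne_zero k hi,
      h _ (Ideal.pow_mem_pow (mem_sI s i) k)⟩
  · exact sup_of_on hM A B x (hQ.1 ▸ h1) hx
/-- local version of `cq_map` -/
lemma cq_loc {N : GM} {f : M.M →ₗ[R] N.M} (hf : Deg0 f) {A B : Submodule R M.M}
    {A' B' : Submodule R N.M} (hA : M.Stab A) (hB : M.Stab B) (hA' : N.Stab A') (hB' : N.Stab B')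
    (hM : M.DegIn X.B) (hN : N.DegIn X.B) (hS : Sup X M A B) (hS' : Sup X N A' B')
    (h1 : ∀ a ∈ A, f a ∈ A') (h2 : ∀ a ∈ A, a ∈ B → f a ∈ B')
    (h3 : ∀ x ∈ X.pts, ∃ r : R, eval x r ≠ 0 ∧ (∀ a ∈ A, f a ∈ B' → r • a ∈ B) ∧
      ∀ a' ∈ A', ∃ a ∈ A, f a - r • a' ∈ B') : cq X M A B = cq X N A' B' := by
  rw [cq_eq hA hB, cq_eq hA' hB']
  refine cl_loc (on_sq hM hS) (on_sq hN hS') (sqMap hA hB hA' hB' f h1 h2) (sqMap_deg0 hf _ _)
    fun x hx => ?_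
  obtain ⟨r, hr, h4, h5⟩ := h3 x hx
  refine ⟨r, hr, fun m hm => ?_, fun m => ?_⟩
  · obtain ⟨a, rfl⟩ := mkq_surj (hA := hA) (hB := hB) m
    rw [sqMap_mkq, mkq_eq_zero] at hm
    rw [← map_smul, mkq_eq_zero]
    exact h4 a a.2 hm
  · obtain ⟨a', rfl⟩ := mkq_surj (hA := hA') (hB := hB') m
    obtain ⟨a, ha, h6⟩ := h5 a' a'.2
    exact ⟨mkq hA hB ⟨a, ha⟩, by rw [sqMap_mkq, ← map_smul, mkq_eq]; exact h6⟩
lemma incl_cq {Z : Spc} (hZ : Z.Sub X) (hM : M.DegIn X.B) {A B : Submodule R M.M}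
    (hS : Sup Z M A B) : incl Z X (cq Z M A B) = cq X M A B := by
  unfold cq
  split_ifs with h
  · exact incl_cl hZ (on_sq (hZ.1 ▸ hM) hS)
  · exact map_zero _
lemma Sup.sub {Z : Spc} (hZ : Z.Sub X) {A B : Submodule R M.M} (hS : Sup Z M A B) : Sup X M A B :=
  fun x h1 h2 => hS x (hZ.1 ▸ h1) fun h => h2 (hZ.2 h)
lemma cq_sub {N : Submodule R M.M} (hN : M.Stab N) : cq X M N ⊥ = cl X (M.sub N hN) := by
  rw [cq_eq hN (stab_bot M)]
  refine (cl_bij (A := M.sub N hN) (mkq hN (stab_bot M)) (fun _ => rfl) ⟨?_, mkq_surj⟩).symm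
  exact (injective_iff_map_eq_zero _).2 fun m hm => Subtype.ext (mkq_eq_zero.1 hm)

lemma syz_of_sec (E : Bun W) {s : E.ι → R} (hs : E.IsSec s) (hh : ∀ i, Hmg (E.deg i) (s i)) :
    Syz W W E s :=
  ⟨⟨rfl, subset_rfl⟩, hh, fun x hx a ha => by
    obtain ⟨μ, h1, h2⟩ := E.alg.cogen x hx a ha
    exact ⟨μ, congrFun h1, fun y hy => by simpa using h2 y hy _ (hs y hy)⟩⟩
lemma Syz.pull {E : Bun X} {s : E.ι → R} (h : Syz W X E s) (hW : W'.Sub W) (hX : X'.Sub X)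
    (hX' : X'.Sub W') : Syz W' X' (E.pull hX.proj) s :=
  ⟨hX', h.hmg, fun x hx a ha => by
    obtain ⟨μ, h1, h2⟩ := h.syz x (hX.2 hx) a fun v hv =>
      ha v (by change v ∈ E.L (restr X.B x); rwa [X.restr_eq (hX.2 hx)])
    exact ⟨μ, h1, fun y hy => h2 y (hW.2 hy)⟩⟩
lemma cone_of_sec (E : Bun W) {s : E.ι → R} (hs : E.IsSec s) (hh : ∀ i, Hmg (E.deg i) (s i))
    (hQ : Q.Sub W) (hz : ∀ x ∈ W.pts, x ∈ Q.pts ↔ ∀ i, eval x (s i) = 0) :
    Cone W Q (E.pull hQ.proj) s :=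
  ⟨hQ, hh, hz, ((syz_of_sec E hs hh).pull ⟨rfl, subset_rfl⟩ hQ hQ).syz⟩
lemma cone_pull {E : Bun Q} {s : E.ι → R} (h : Cone W Q E s) (hW : W'.Sub W) (hQ : Q'.Sub Q)
    (hQ' : Q'.Sub W') (hz : ∀ x ∈ W'.pts, x ∈ Q.pts → x ∈ Q'.pts) :
    Cone W' Q' (E.pull hQ.proj) s :=
  ⟨hQ', h.hmg, fun x hx => ⟨fun h' => (h.zero x (hW.2 hx)).1 (hQ.2 h'),
    fun h' => hz x hx ((h.zero x (hW.2 hx)).2 h')⟩, (h.toSyz.pull hW hQ hQ').syz⟩
/-- the derivative of the section lies in the bundle -/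
lemma Syz.dS_mem {E : Bun X} {s : E.ι → R} (h : Syz W X E s) {x ξ : Pt} (hx : x ∈ X.pts)
    (h0 : ∀ i, eval x (s i) = 0) (hξ : ξ ∈ W.Tan x) : dS x s ξ ∈ E.L x := by
  rw [← perp_perp (E.L x)]
  intro a ha
  obtain ⟨μ, h1, h2⟩ := h.syz x hx a ha
  have h3 := hξ _ h2
  rw [← Jac.dL_apply, map_sum, LinearMap.sum_apply] at h3
  simpa only [Jac.dL_apply, dAt_mul, h0, h1, zero_mul, add_zero, dS_apply, mul_comm (a _)] using h3
/-- Uniform re-embedding. Apply `Bun.exists_unif` to the trivial bundle `triv W E.deg` on `W`, get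
`f`; `E' = f(E)`, `s' = f s`. With a local retraction `H f = r` on `W` (`IsAlg.exists_retr`) the
syzygy for `a'` is `μ' = (r a' + Hᵀ(μ - fᵀ a')) / r(x)`, `μ` the syzygy for `fᵀ(x) a'`. -/
theorem Syz.exists_unif {E : Bun X} {s : E.ι → R} (h : Syz W X E s) :
    ∃ (E' : Bun X) (s' : E'.ι → R) (δ : D), δ ∈ DS X.B ∧ E'.Unif δ ∧ Syz W X E' s' ∧
      E'.kl = E.kl ∧ (∀ x ∈ X.pts, finrank ℂ (E'.L x) = finrank ℂ (E.L x)) ∧ sI s' ≤ sI s ∧
      ∀ x ∈ W.pts, ∃ r : R, eval x r ≠ 0 ∧ ∀ a ∈ sI s, r * a ∈ sI s' ⊔ W.I := by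
  obtain ⟨A, δ, f, hδ, hu, hf, hi⟩ := (Bun.triv W E.deg fun i => h.sub.1 ▸ E.hdeg i).exists_unif
  change Matrix A.ι E.ι R at f
  change MHmg E.deg A.deg f at hf
  have hk : ∀ (U : Submodule ℂ (E.ι → ℂ)), ∀ x ∈ W.pts, U ⊓ LinearMap.ker (mev x f) = ⊥ :=
    fun U x hx => by
      have : LinearMap.ker (mev x f) = ⊥ := LinearMap.ker_eq_bot.2 (hi x hx).1
      rw [this, inf_bot_eq]
  have hr : ∀ x ∈ W.pts, ∃ (r : R) (H : Matrix E.ι A.ι R), eval x r ≠ 0 ∧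
      ∀ y ∈ W.pts, ∀ v, mev y H (mev y f v) = eval y r • v := fun x hx => by
    obtain ⟨r, H, h1, h2⟩ := (isAlg_const (X := W) ⊤).exists_retr f hx (hk _ x hx)
    exact ⟨r, H, h1, fun y hy v => (h2 y hy).2 v trivial⟩
  have es : ∀ y j, eval y (∑ i, f j i * s i) = mev y f (fun i => eval y (s i)) j := fun y j => by
    simp [mev_apply]
  refine ⟨⟨A.ι, A.deg, fun j => h.sub.1 ▸ A.hdeg j, fun x => (E.L x).map (mev x f), E.eqv.map hf,
    E.alg.map_of_inj f fun x hx => hk _ x (h.sub.2 hx)⟩, fun j => ∑ i, f j i * s i, δ,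
    h.sub.1 ▸ hδ, hu, ⟨h.sub, fun j => Hmg.sum _ fun i _ => ?_, fun x hx a ha => ?_⟩,
    (kl_iso (A := E) f hf fun x hx => ⟨hk _ x (h.sub.2 hx), rfl⟩).symm,
    fun x hx => B0.finrank_map_of_inj (hk _ x (h.sub.2 hx)), Ideal.span_le.2 ?_, fun x hx => ?_⟩
  · simpa only [sub_add_cancel] using (hf j i).mul (h.hmg i)
  · change A.ι → ℂ at a
    obtain ⟨μ, h1, h2⟩ := h.syz x hx (mev x f.transpose a) fun v hv => by
      rw [← pair_mev]; exact ha _ ⟨v, hv, rfl⟩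
    obtain ⟨r, H, r0, hH⟩ := hr x (h.sub.2 hx)
    have e : ∀ y j, eval y (C (eval x r)⁻¹ * (r * C (a j) +
        ∑ i, H i j * (μ i - ∑ l, f l i * C (a l)))) = (eval x r)⁻¹ * (eval y r * a j +
          mev y H.transpose (fun i => eval y (μ i) - mev y f.transpose a i) j) := fun y j => by
      simp [mev_apply]
    refine ⟨fun j => C (eval x r)⁻¹ * (r * C (a j) + ∑ i, H i j * (μ i - ∑ l, f l i * C (a l))),
      fun j => ?_, fun y hy => ?_⟩
    · rw [e]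
      simp [h1, mev_apply, r0]
    · have h3 := h2 y hy
      have h4 := pair_mev y H (fun i => eval y (μ i) - mev y f.transpose a i)
        (mev y f fun i => eval y (s i))
      have h5 := pair_mev y f a fun i => eval y (s i)
      simp only [hH y hy, Pi.smul_apply, smul_eq_mul, sub_mul, mul_left_comm _ (eval y r),
        Finset.sum_sub_distrib, ← Finset.mul_sum] at h4
      simp only [map_sum, map_mul] at h3
      rw [map_sum, Finset.sum_congr rfl fun j _ => by rw [map_mul, e, es]]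
      simp only [mul_assoc, add_mul, ← Finset.mul_sum, Finset.sum_add_distrib]
      rw [← h4, h3, h5]
      ring
  · rintro _ ⟨j, rfl⟩
    exact Ideal.sum_mem _ fun i _ => Ideal.mul_mem_left _ _ (mem_sI s i)
  · obtain ⟨r, H, r0, hH⟩ := hr x hx
    refine ⟨r, r0, fun a ha => ?_⟩
    induction ha using Submodule.span_induction with
    | mem _ ha =>
      obtain ⟨i, rfl⟩ := ha
      rw [← add_sub_cancel (∑ j, H i j * ∑ l, f j l * s l) (r * s i)]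
      refine Submodule.add_mem_sup (Ideal.sum_mem _ fun j _ => Ideal.mul_mem_left _ _
        (mem_sI (fun j => ∑ l, f j l * s l) j)) fun y hy => ?_
      have := congrFun (hH y hy fun i => eval y (s i)) i
      rw [mev_apply] at this
      rw [map_sub, map_sum]
      simp only [map_mul, es, this, Pi.smul_apply, smul_eq_mul, sub_self]
    | zero => simp
    | add a b _ _ ha hb => rw [mul_add]; exact add_mem ha hb
    | smul c a _ ha => rw [smul_eq_mul, mul_left_comm]; exact Ideal.mul_mem_left _ _ ha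
lemma pow_smul_mem_ipw {I' : Ideal R} (hM : M.Red W) {r : R} (h : ∀ a ∈ I, r * a ∈ I' ⊔ W.I)
    (k : ℕ) : ∀ m ∈ ipw I M k, r ^ k • m ∈ ipw I' M k := by
  induction k with
  | zero => intro m _; rw [ipw_zero]; trivial
  | succ k ih =>
    intro m hm
    rw [ipw_succ] at hm
    refine Submodule.smul_induction_on hm (fun a ha m hm => ?_) fun x y hx hy => ?_
    · obtain ⟨b, hb, c, hc, e⟩ := Submodule.mem_sup.1 (h a ha)
      rw [smul_smul, show r ^ (k + 1) * a = r * a * r ^ k by ring, mul_smul, ← e, add_smul,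
        hM.ann c hc, add_zero]
      exact smul_mem_ipw_succ hb (ih m hm)
    · rw [smul_add]; exact add_mem hx hy
/-- Change of ideal: `A' k = A k ⊓ I'^k M` (use `cq_loc` with the identity and `r ^ k`). -/
theorem sys_change {I' : Ideal R} (hX : X.Sub W) (hM : M.Red W) (hI' : ∀ r ∈ I', gam r ∈ I')
    (hle : I' ≤ I) (hloc : ∀ x ∈ W.pts, ∃ r : R, eval x r ≠ 0 ∧ ∀ a ∈ I, r * a ∈ I' ⊔ W.I)
    {A B : ℕ → Submodule R M.M} (hA : Sys M I A) (hB : Sys M I B) (hS : ∀ k, Sup X M (A k) (B k)) :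
    ∃ A' B' : ℕ → Submodule R M.M, Sys M I' A' ∧ Sys M I' B' ∧ (∀ k, Sup X M (A' k) (B' k)) ∧
      ∀ k, cq X M (A' k) (B' k) = cq X M (A k) (B k) := by
  have key : ∀ {A}, Sys M I A → Sys M I' fun k => A k ⊓ ipw I' M k := fun h =>
    ⟨fun k => stab_inf (h.stab k) (stab_ipw hI' M k), fun _ => inf_le_right,
      fun k r hr a ha => ⟨h.mul k r (hle hr) a ha.1, smul_mem_ipw_succ hr ha.2⟩⟩
  have hS' : ∀ k, Sup X M (A k ⊓ ipw I' M k) (B k ⊓ ipw I' M k) := fun k x h1 h2 =>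
    let ⟨r, hr, h⟩ := hS k x h1 h2
    ⟨r, hr, fun a ha => ⟨h a ha.1, Submodule.smul_mem _ r ha.2⟩⟩
  have hd : M.DegIn X.B := hX.1 ▸ hM.deg
  refine ⟨_, _, key hA, key hB, hS', fun k => cq_loc (f := LinearMap.id) (fun _ => rfl)
    ((key hA).stab k) ((key hB).stab k) (hA.stab k) (hB.stab k) hd hd (hS' k) (hS k)
    (fun _ h => h.1) (fun _ _ h => h.1) fun x hx => ?_⟩
  obtain ⟨r, hr, h⟩ := hloc x (hX.2 hx)
  exact ⟨r ^ k, by rw [map_pow]; exact pow_ne_zero k hr,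
    fun a ha hb => Submodule.smul_mem _ _ ⟨hb, ha.2⟩, fun a ha => ⟨r ^ k • a,
      ⟨Submodule.smul_mem _ _ ha, pow_smul_mem_ipw hM h k a (hA.le k ha)⟩, by simp⟩⟩

end Crest.Agent.N265.V
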