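import Crest.Agent.N265.V.Defs
import Crest.Agent.N265.CA.Der

/-! # Row 265, layer V, task V4: vector fields at smooth points, leading forms, normal bundles -/

set_option autoImplicit false
noncomputable section
open MvPolynomial Module

namespace Crest.Agent.N265.V
open GM Bun
variable {W Z F : Spc}

lemma der_sum_apply {α : Type} (t : Finset α) (d : α → Derivation ℂ R R) (a : R) :
    (∑ i ∈ t, d i) a = ∑ i ∈ t, d i a := by
  have h := congrFun (map_sum (Derivation.coeFnAddMonoidHom (R := ℂ) (A := R) (M := R)) d t) a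
  rw [Finset.sum_apply] at h
  exact h
lemma der_mem_span (D : Derivation ℂ R R) {t : Set R} (h : ∀ a ∈ t, D a = 0) {a : R}
    (ha : a ∈ Ideal.span t) : D a ∈ Ideal.span t := by
  induction ha using Submodule.span_induction with
  | mem a ha => rw [h a ha]; exact zero_mem _
  | zero => rw [map_zero]; exact zero_mem _
  | add a b _ _ ha hb => rw [map_add]; exact add_mem ha hb
  | smul r a h1 ha =>
    rw [smul_eq_mul, D.leibniz, smul_eq_mul, smul_eq_mul]
    exact add_mem (Ideal.mul_mem_left _ _ ha) (Ideal.mul_mem_right _ _ h1)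
lemma iter_add (D : Derivation ℂ R R) (k : ℕ) (a b : R) :
    (D : R → R)^[k] (a + b) = (D : R → R)^[k] a + (D : R → R)^[k] b := by
  induction k generalizing a b with
  | zero => rfl
  | succ k ih => simp only [Function.iterate_succ_apply, map_add, ih]
lemma iter_mem_pow (D : Derivation ℂ R R) (I : Ideal R) (k : ℕ) {a : R} (ha : a ∈ I ^ (k + 1)) :
    (D : R → R)^[k] a ∈ I := by
  induction k generalizing a with
  | zero => simpa using ha
  | succ k ih => exact ih (CA.der_mem_pow D I _ ha)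

/-- A tangent vector at a smooth point extends to a vector field. `Jac.smAt_local_eqs` with
`J₀ = varI V` gives `y, η, r`; `Jac.exists_der` gives `f, d_j`; `D = f ∂_ξ - ∑ ∂_ξ(y_j) d_j`,
`J = varI V ⊔ span y`. -/
theorem exists_field {x ξ : Pt} (hx : x ∈ W.pts) (h : W.SmAt x) (hξ : ξ ∈ W.Tan x) :
    ∃ (D : Derivation ℂ R R) (J : Ideal R) (r : R), eval x r ≠ 0 ∧ J ≤ W.I ∧
      (∀ a ∈ W.I, r * a ∈ J) ∧ (∀ a ∈ J, D a ∈ J) ∧ ∀ a, eval x (D a) = dAt x ξ a := by
  obtain ⟨V, -, hV⟩ := W.fin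
  have hle : Jac.varI V ≤ W.I := Jac.varI_le fun v hv y hy => by rw [eval_X]; exact hV y hy v hv
  obtain ⟨c, y, η, h1, h2, h3, -, r, hr, h5⟩ := Jac.smAt_local_eqs (Jac.finJ_varI V) hle hx h
  obtain ⟨f, A, hf, hA⟩ := Jac.exists_der y η h3
  let δ : Pt → Derivation ℂ R R := fun ζ => mkDerivation ℂ fun v => (C (ζ v) : R)
  let d : Fin c → Derivation ℂ R R := fun i => ∑ k, A i k • δ (η k)
  let D : Derivation ℂ R R := f • δ ξ - ∑ j, δ ξ (y j) • d j
  have hD : ∀ a, D a = f * δ ξ a - ∑ j, δ ξ (y j) * d j a := fun a => by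
    simp only [D, Derivation.sub_apply, Derivation.smul_apply, smul_eq_mul, der_sum_apply]
  have hX : ∀ ζ ∈ TanI (Jac.varI V) x, ∀ v ∉ V, δ ζ (X v) = 0 := fun ζ hζ v hv => by
    have : ζ v = 0 := by simpa using hζ _ (Jac.X_mem_varI hv)
    simp [δ, this]
  refine ⟨D, _, r, hr, Jac.sup_span_le hle h1, h5, fun a ha => ?_, fun a => ?_⟩
  · rw [Jac.varI, ← Ideal.span_union] at ha ⊢
    refine der_mem_span D ?_ ha
    rintro _ (⟨v, hv, rfl⟩ | ⟨i, rfl⟩)
    · have h6 : ∀ j, d j (X v) = 0 := fun j => by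
        simp only [d, der_sum_apply, Derivation.smul_apply, hX _ (h2 _) v hv, smul_zero,
          Finset.sum_const_zero]
      simp only [hD, hX ξ (Jac.TanI_anti hle x hξ) v hv, h6, mul_zero, Finset.sum_const_zero,
        sub_zero]
    · have h6 : ∀ j, d j (y i) = if j = i then f else 0 := fun j => hA j i
      simp only [hD, h6, mul_ite, mul_zero, Finset.sum_ite_eq', Finset.mem_univ, if_true]
      ring
  · have h6 : ∀ j, eval x (δ ξ (y j)) = 0 := fun j => hξ _ (h1 j)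
    simp only [hD, map_sub, map_mul, map_sum, hf, h6, one_mul, zero_mul, Finset.sum_const_zero,
      sub_zero]
    rfl
/-- `D^k (F(s)) ≡ k! F(D s)` modulo `(s)` (`CA.der_eval`, Euler's identity, induction on `k`) -/
theorem der_iter {ι : Type} [Fintype ι] (D : Derivation ℂ R R) (s : ι → R) (k : ℕ)
    (P : MvPolynomial ι R) (hP : P.IsHomogeneous k) :
    (D : R → R)^[k] (eval s P) - (k.factorial : R) * eval (fun i => D (s i)) P ∈ sI s := by
  classical
  induction k generalizing P with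
  | zero =>
    rw [totalDegree_eq_zero_iff_eq_C.1 (Nat.le_zero.1 hP.totalDegree_le)]
    simp
  | succ k ih =>
    let Q : MvPolynomial ι R := ∑ j, C (D (s j)) * pderiv j P
    have hQ : Q.IsHomogeneous k := IsHomogeneous.sum _ _ _ fun j _ =>
      IsHomogeneous.C_mul (by simpa using hP.pderiv) _
    have h1 : D (eval s P) = eval s (CA.derCoeff D P) + eval s Q := by
      rw [CA.der_eval]
      simp only [Q, map_sum, map_mul, eval_C, mul_comm]
    have h2 : eval (fun i => D (s i)) Q = ((k : R) + 1) * eval (fun i => D (s i)) P := by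
      have := congrArg (eval fun i => D (s i)) hP.sum_X_mul_pderiv
      simp only [map_sum, map_mul, eval_X, nsmul_eq_mul, map_natCast] at this
      simp only [Q, map_sum, map_mul, eval_C, this]
      push_cast
      rfl
    have h3 := ih Q hQ
    have h4 := iter_mem_pow D (sI s) k
      (CA.eval_mem_pow (mem_sI s) (CA.derCoeff_isHomogeneous D hP))
    rw [Function.iterate_succ_apply, h1, iter_add]
    convert add_mem h4 h3 using 1
    rw [h2, Nat.factorial_succ]
    push_cast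
    ring
/-- the leading form of a relation vanishes on the image of the tangent space -/
theorem jet {x ξ : Pt} (hx : x ∈ W.pts) (h : W.SmAt x) (hξ : ξ ∈ W.Tan x) {ι : Type} [Fintype ι]
    (s : ι → R) (h0 : ∀ i, eval x (s i) = 0) {k : ℕ} (c : Mon ι k → R)
    (hc : ∑ α, c α * ∏ i, s i ^ α.1 i ∈ sI s ^ (k + 1) ⊔ W.I) :
    polEv (fun α => eval x (c α)) (dS x s ξ) = 0 := by
  obtain ⟨D, J, r, hr, hJ, h1, h2, h3⟩ := exists_field hx h hξ
  let P : MvPolynomial ι R := ∑ α : Mon ι k, monomial α.1 (r * c α)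
  have hP : P.IsHomogeneous k := IsHomogeneous.sum _ _ _ fun α _ => isHomogeneous_monomial _ α.2
  have hev : ∀ t : ι → R, eval t P = r * ∑ α, c α * ∏ i, t i ^ α.1 i := fun t => by
    simp only [P, map_sum, eval_monomial, Finset.mul_sum, mul_assoc,
      Finsupp.prod_fintype _ _ fun i => pow_zero (t i)]
  have hs : sI s ≤ mx x := Ideal.span_le.2 (by rintro _ ⟨i, rfl⟩; exact h0 i)
  obtain ⟨a, ha, b, hb, hab⟩ := Submodule.mem_sup.1 hc
  have h4 : ∀ (m : ℕ) (a : R), a ∈ J → (D : R → R)^[m] a ∈ J := fun m => by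
    induction m with
    | zero => exact fun _ ha => ha
    | succ m ih => exact fun a ha => ih _ (h2 a ha)
  have h5 : (D : R → R)^[k] (eval s P) ∈ mx x := by
    rw [hev, ← hab, mul_add, iter_add]
    exact add_mem (hs (iter_mem_pow D _ k (Ideal.mul_mem_left _ _ ha)))
      (Jac.I_le_mx hx (hJ (h4 k _ (h1 b hb))))
  have h6 := mem_mx.1 (hs (der_iter D s k P hP))
  rw [map_sub, mem_mx.1 h5, zero_sub, neg_eq_zero, hev, map_mul, map_mul, map_natCast] at h6
  have h7 := ((mul_eq_zero.1 ((mul_eq_zero.1 h6).resolve_left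
    (Nat.cast_ne_zero.2 k.factorial_ne_zero))).resolve_left hr)
  simpa only [map_sum, map_mul, map_prod, map_pow, h3, polEv, dS_apply] using h7

variable {ι : Type} {s : ι → R}
lemma Reg.mem_I (h : Reg W Z s) (i : ι) : s i ∈ Z.I :=
  fun x hx => (h.zero x (h.sub.2 hx)).1 hx i
lemma finrank_map_tan (W : Spc) (z : Pt) {U : Type} [AddCommGroup U] [Module ℂ U]
    (φ : Pt →ₗ[ℂ] U) : finrank ℂ ((W.Tan z).map φ) +
      finrank ℂ (W.Tan z ⊓ LinearMap.ker φ : Submodule ℂ Pt) = finrank ℂ (W.Tan z) := by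
  have : Module.Finite ℂ (W.Tan z) := (Jac.finJ_I W).finite_tan z
  have h := (φ ∘ₗ (W.Tan z).subtype).finrank_range_add_finrank_ker
  rw [LinearMap.range_comp, Submodule.range_subtype, LinearMap.ker_comp] at h
  rw [← h, ← Submodule.finrank_map_subtype_eq (W.Tan z) (Submodule.comap _ _),
    Submodule.map_comap_subtype]
/-- Jacobian criterion (`Jac.exists_dual_ideal` for `W.I`, `sI s`; `Jac.reg_at`) -/
theorem Reg.eqs [Fintype ι] (h : Reg W Z s) {z : Pt} (hz : z ∈ Z.pts) :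
    Z.SmAt z ∧ Z.Tan z = W.Tan z ⊓ LinearMap.ker (dS z s) ∧
      ∃ (y : Fin (finrank ℂ ((W.Tan z).map (dS z s))) → R) (ρ : R), (∀ j, y j ∈ sI s) ∧
        eval z ρ ≠ 0 ∧ ∀ a ∈ Z.I, ρ * a ∈ W.I ⊔ sI y := by
  have hsZ : sI s ≤ Z.I := Ideal.span_le.2 (by rintro _ ⟨i, rfl⟩; exact h.mem_I i)
  obtain ⟨c, y, ξ, h1, -, -, h4, h5⟩ := Jac.exists_dual_ideal (Jac.finJ_I W) (sI s) z
  have e1 : TanI (W.I ⊔ sI s) z = W.Tan z ⊓ LinearMap.ker (dS z s) := by
    ext η
    exact (Jac.mem_TanI_sup_span fun i => h.mem_I i z hz).trans (and_congr_right' mem_ker_dS.symm)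
  have e2 : TanI (W.I ⊔ sI y) z = W.Tan z ⊓ LinearMap.ker (dS z s) := by
    rw [← e1]
    refine le_antisymm (fun η hη => ?_) (Jac.TanI_anti (sup_le_sup_left
      (Ideal.span_le.2 (by rintro _ ⟨j, rfl⟩; exact h1 j)) _) z)
    obtain ⟨h6, h7⟩ := (Jac.mem_TanI_sup_span fun j => hsZ (h1 j) z hz).1 hη
    rw [Jac.TanI_sup]
    refine ⟨h6, fun a ha => ?_⟩
    obtain ⟨co, hco⟩ := h4 a ha
    rw [hco η h6]
    simp [h7]
  obtain ⟨h6, -, -, ⟨ρ, h7, h8⟩, h9⟩ := Jac.reg_at ((Jac.finJ_I W).mono le_sup_left)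
    (Jac.sup_span_le h.sub.I_le fun j => hsZ (h1 j)) (Jac.I_le_mx hz)
    (by erw [e2]; exact h.tan z hz)
  have hc : c = finrank ℂ ((W.Tan z).map (dS z s)) := by
    have := finrank_map_tan W z (dS z s)
    rw [e1] at h5
    change _ + c = finrank ℂ (W.Tan z) at h5
    omega
  subst hc
  refine ⟨?_, h9.trans e2, y, ρ, h1, h7, h8⟩
  change (finrank ℂ (TanI Z.I z) : ℕ∞) ≤ Jac.hq Z.I (mx z)
  rw [h9, h6]
lemma dAt_gpt (x ξ : Pt) (r : R) : dAt (gpt x) (gpt ξ) r = dAt x ξ (gam r) := by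
  induction r using MvPolynomial.induction_on with
  | C c => simp
  | add p q hp hq => simp only [dAt_add, map_add, hp, hq]
  | mul_X p v hp =>
    simp only [map_mul, dAt_mul, hp, gam_X, dAt_X, dAt_C, eval_X, eval_C, eval_gam, gpt]
    ring
lemma gpt_mem_tan {x ξ : Pt} : gpt ξ ∈ W.Tan (gpt x) ↔ ξ ∈ W.Tan x := by
  refine ⟨fun h r hr => ?_, fun h r hr => by rw [dAt_gpt]; exact h _ (Spc.gam_mem_I hr)⟩
  obtain ⟨r, rfl⟩ := gam_surj r
  rw [← dAt_gpt]
  exact h r (mem_of_gam_mem (fun _ => Spc.gam_mem_I) hr)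
lemma eval_der (D : Derivation ℂ R R) (y : Pt) (a : R) :
    eval y (D a) = dAt y (fun v => eval y (D (X v))) a := by
  induction a using MvPolynomial.induction_on with
  | C c => simp [← algebraMap_eq]
  | add p q hp hq => simp only [dAt_add, map_add, hp, hq]
  | mul_X p v hp => simp only [D.leibniz, smul_eq_mul, map_add, map_mul, dAt_mul, hp, dAt_X]
/-- `Gen` from `exists_field` (the section `r · D (s i)`), rank from `Jac.smAt_near` for `W`, `Z` -/
theorem Reg.isAlg [Fintype ι] (h : Reg W Z s) : IsAlg Z fun z => (W.Tan z).map (dS z s) := by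
  refine Gen.isAlg (gen_of_local ?_) fun z hz => ?_
  · rintro z hz _ ⟨ξ, hξ, rfl⟩
    obtain ⟨D, J, r, hr, hJ, h1, h2, h3⟩ := exists_field (h.sub.2 hz) (h.sm z hz) hξ
    refine ⟨r, fun i => D (s i), hr, funext fun i => h3 _, fun y hy hry =>
      ⟨fun v => eval y (D (X v)), fun a ha => ?_, funext fun i => (eval_der D y _).symm⟩⟩
    have h4 := hJ (h2 _ (h1 a ha)) y (h.sub.2 hy)
    rw [D.leibniz, smul_eq_mul, smul_eq_mul, map_add, map_mul, map_mul, ha y (h.sub.2 hy),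
      zero_mul, add_zero] at h4
    rw [← eval_der]
    exact (mul_eq_zero.1 h4).resolve_left hry
  · obtain ⟨g, hg, h1⟩ := Jac.smAt_near (h.sub.2 hz) (h.sm z hz)
    obtain ⟨g', hg', h2⟩ := Jac.smAt_near hz (h.eqs hz).1
    refine ⟨g * g', by rw [map_mul]; exact mul_ne_zero hg hg', fun y hy hgy => ?_⟩
    rw [map_mul] at hgy
    have h3 := (h1 y (h.sub.2 hy) (left_ne_zero_of_mul hgy)).2
    have h4 := (h2 y hy (right_ne_zero_of_mul hgy)).2
    have h5 := finrank_map_tan W z (dS z s)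
    have h6 := finrank_map_tan W y (dS y s)
    rw [← (h.eqs hz).2.1] at h5
    rw [← (h.eqs hy).2.1] at h6
    beta_reduce
    omega
theorem Reg.isEqv (h : Reg W Z s) {deg : ι → D} (hh : ∀ i, Hmg (deg i) (s i)) :
    IsEqv Z deg fun z => (W.Tan z).map (dS z s) := by
  have _ := h
  have key : ∀ z ξ, dS (gpt z) s (gpt ξ) = gd deg (dS z s ξ) := fun z ξ => funext fun i => by
    rw [dS_apply, dAt_gpt, hh i, Jac.dAt_C_mul]; rfl
  refine isEqv_iff'.2 fun z _ v => ⟨?_, ?_⟩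
  · rintro ⟨ξ, hξ, rfl⟩
    exact ⟨gpt ξ, gpt_mem_tan.2 hξ, key z ξ⟩
  · rintro ⟨ξ, hξ, e⟩
    obtain ⟨ξ, rfl⟩ := gpt_surj ξ
    exact ⟨ξ, gpt_mem_tan.1 hξ, (gd deg).injective ((key z ξ).symm.trans e)⟩
/-- the normal bundle inside the ambient bundle of `E` -/
def Reg.nor {E : Bun Z} {s : E.ι → R} (h : Reg W Z s) (hh : ∀ i, Hmg (E.deg i) (s i)) : Bun Z :=
  E.re (fun z => (W.Tan z).map (dS z s)) (h.isEqv hh) h.isAlg

lemma map_comap_extV {V : Finset Var} (hV : W.Vars V) (x : Pt) :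
    ((W.Tan x).comap (extV V)).map (extV V) = W.Tan x :=
  Submodule.map_comap_eq_of_le fun ξ hξ => ⟨_, Jac.ext0_restrict fun v hv => by
    simpa using hξ (X v) fun y hy => by rw [eval_X]; exact hV.2 y hy v hv⟩
lemma finrank_comap_extV {V : Finset Var} (hV : W.Vars V) (x : Pt) :
    finrank ℂ ((W.Tan x).comap (extV V)) = finrank ℂ (W.Tan x) := by
  conv_rhs => rw [← map_comap_extV hV x]
  exact (Submodule.equivMapOfInjective (extV V) (Jac.ext0_inj V) _).finrank_eq
lemma mev_jac' (V : Finset Var) (s : ι → R) (x : Pt) : mev x (jac V s) = dS x s ∘ₗ extV V :=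
  LinearMap.ext fun u => funext fun i => mev_jac V s x u i

/-- the tangent bundle of `W` along a subspace of smooth points (`Cogen.isAlg`, `Jac.smAt_near`) -/
def tanOn (W F : Spc) (V : Finset Var) (hF : F.Sub W) (hV : W.Vars V)
    (hs : ∀ z ∈ F.pts, W.SmAt z) : Bun F where
  ι := V
  deg := fun v => vdeg v.1
  hdeg := fun v => vdeg_mem (hF.1 ▸ hV.1 v.1 v.2)
  L := fun x => (W.Tan x).comap (extV V)
  eqv := fun x _ u => by
    have : extV V (fun v : V => chi (vdeg v.1) * u v) = gpt (extV V u) := funext fun v => by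
      by_cases h : v ∈ V <;> simp [extV, gpt, h]
    rw [Submodule.mem_comap, Submodule.mem_comap, this, gpt_mem_tan]
  alg := by
    refine Cogen.isAlg ((Cogen.iInf fun a : W.I => (isAlg_const (X := F) ⊥).cogen.comap
      (jac V fun _ : Unit => a.1)).congr fun x _ => ?_) fun z hz => ?_
    · ext u
      simp only [Submodule.mem_iInf, Submodule.mem_comap, Submodule.mem_bot, funext_iff, mev_jac,
        Pi.zero_apply, forall_const, Subtype.forall]
      rfl
    · obtain ⟨g, hg, h1⟩ := Jac.smAt_near (hF.2 hz) (hs z hz)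
      refine ⟨g, hg, fun y hy hgy => ?_⟩
      simp only [finrank_comap_extV hV, (h1 y (hF.2 hy) hgy).2, le_refl]
lemma vars_sub {V : Finset Var} (hV : W.Vars V) (hF : F.Sub W) : F.Vars V :=
  ⟨fun v hv => hF.1 ▸ hV.1 v hv, fun x hx => hV.2 x (hF.2 hx)⟩
lemma kl_tanOn {V : Finset Var} (hF : F.Sub W) (hV : W.Vars V) {n : ℕ} (hW : W.Sm n) (hs) :
    (tanOn W F V hF hV hs).kl = ((Bun.tan W V hV n hW).pull hF.proj).kl :=
  kl_iso (1 : Matrix V V R) (MHmg.one _) fun x hx => ⟨B0.one_inf _ x, (B0.one_map _ x).trans (by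
    change _ = (W.Tan (restr W.B x)).comap (extV V)
    rw [W.restr_eq (hF.2 hx)]; rfl)⟩
lemma kl_tanOn_of_eq {V : Finset Var} (hF : F.Sub W) (hV : W.Vars V) {m : ℕ} (hm : F.Sm m) (hs)
    (h : ∀ z ∈ F.pts, F.Tan z = W.Tan z) :
    (tanOn W F V hF hV hs).kl = (Bun.tan F V (vars_sub hV hF) m hm).kl :=
  kl_iso (1 : Matrix V V R) (MHmg.one _) fun x hx => ⟨B0.one_inf _ x, (B0.one_map _ x).trans (by
    change _ = (F.Tan x).comap (extV V)
    rw [h x hx]; rfl)⟩
/-- the normal bundle sequence (matrices `1` and `jac V s`) -/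
theorem Reg.kl_nor {E : Bun Z} {s : E.ι → R} (h : Reg W Z s) (hh : ∀ i, Hmg (E.deg i) (s i))
    {V : Finset Var} (hV : W.Vars V) (hF : F.Sub Z) (hs hs') :
    (tanOn W F V (hF.trans h.sub) hV hs).kl =
      (tanOn Z F V hF (vars_sub hV h.sub) hs').kl + ((h.nor hh).pull hF.proj).kl := by
  refine kl_ses ⟨(1 : Matrix V V R), jac V s, MHmg.one _, mhmg_jac V hh, fun x hx =>
    ⟨B0.one_inf _ x, (B0.one_map _ x).trans ?_, ?_⟩⟩
  · change (Z.Tan x).comap (extV V) =
      (W.Tan x).comap (extV V) ⊓ LinearMap.ker (mev x (jac V s))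
    rw [(h.eqs (hF.2 hx)).2.1, mev_jac', LinearMap.ker_comp, Submodule.comap_inf]
  · change ((W.Tan x).comap (extV V)).map (mev x (jac V s)) =
      (W.Tan (restr Z.B x)).map (dS (restr Z.B x) s)
    rw [Z.restr_eq (hF.2 hx), mev_jac', Submodule.map_comp, map_comap_extV hV]
/-- the excess bundle -/
theorem Reg.exists_excess {E : Bun Z} {s : E.ι → R} (h : Reg W Z s) (hh : ∀ i, Hmg (E.deg i) (s i))
    (hE : ∀ z ∈ Z.pts, ∀ ξ ∈ W.Tan z, dS z s ξ ∈ E.L z) :
    ∃ C : Bun Z, E.kl = (h.nor hh).kl + C.kl := by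
  obtain ⟨C, p, hp, h1⟩ := exists_quot (h.nor hh) E (1 : Matrix E.ι E.ι R) (MHmg.one _)
    fun x hx => ⟨B0.one_inf _ x, (B0.one_map _ x).le.trans (by
      rintro _ ⟨ξ, hξ, rfl⟩; exact hE x hx ξ hξ)⟩
  exact ⟨C, kl_ses ⟨(1 : Matrix E.ι E.ι R), p, MHmg.one _, hp, fun x hx =>
    ⟨B0.one_inf _ x, h1 x hx⟩⟩⟩

end Crest.Agent.N265.V
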