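import Crest.Agent.N265.V.Jet
import Crest.Agent.N265.V.Cone

/-! # Row 265, layer V, task V5: `I^k / I^(k+1) = Sym^k N^∨` for a smooth pair -/

set_option autoImplicit false
noncomputable section
open MvPolynomial Module

namespace Crest.Agent.N265.V
open GM Bun
variable {W Z : Spc}

/-- every element of `I^k` is a form of degree `k` in the generators -/
lemma mem_pow_iff {ι : Type} [Fintype ι] (s : ι → R) (k : ℕ) {a : R} :
    a ∈ sI s ^ k ↔ ∃ c : Mon ι k → R, a = ∑ α, c α * ∏ i, s i ^ α.1 i := by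
  have key : ∀ c : Mon ι k → R, eval s (∑ α : Mon ι k, C (c α) * monomial α.1 1) =
      ∑ α, c α * ∏ i, s i ^ α.1 i := fun c => by
    simp [eval_monomial, Finsupp.prod_fintype]
  rw [sI, Ideal.mem_span_pow_iff_exists_isHomogeneous]
  constructor
  · rintro ⟨p, hp, rfl⟩
    exact ⟨fun α => coeff α.1 p, by rw [← key, Pol.sum_coeff_eq hp]⟩
  · rintro ⟨c, rfl⟩
    exact ⟨_, IsHomogeneous.sum _ _ _ fun α _ => (isHomogeneous_monomial _ α.2).C_mul _, key c⟩

lemma eval_form {ι : Type} [Fintype ι] (s : ι → R) {k : ℕ} (c : Mon ι k → R) (x : Pt) :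
    eval x (∑ α, c α * ∏ i, s i ^ α.1 i) =
      polEv (fun α => eval x (c α)) fun i => eval x (s i) := by
  simp [polEv]

lemma mon_mem_pow {ι : Type} [Fintype ι] {y : ι → R} {I : Ideal R} (hy : ∀ j, y j ∈ I) {k : ℕ}
    (β : Mon ι k) : ∏ j, y j ^ β.1 j ∈ I ^ k := by
  have := Ideal.prod_mem_prod (s := Finset.univ) fun j _ => Ideal.pow_mem_pow (hy j) (β.1 j)
  rwa [Finset.prod_pow_eq_pow_sum, β.sum_eq] at this

/-- Converse of `jet`, locally. With `y, ρ` from `Reg.eqs`: `ρ s ≡ H y mod W.I`; at `z' ∈ Z` near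
`z`, `ρ ds = H dy`, and the rank of `N` is locally constant (`Reg.isAlg`, `IsAlg.lc`), so
`N z' = range (H z')`; the coefficients `c'` of `y ↦ c (H y)` (`exists_subst`) vanish on `Z` near
`z` (`polEv_inj`), hence lie locally in `W.I ⊔ sI s`. -/
theorem Reg.mem_of_van {ι : Type} [Fintype ι] {s : ι → R} (h : Reg W Z s) {z : Pt} (hz : z ∈ Z.pts)
    (k : ℕ) : ∃ r : R, eval z r ≠ 0 ∧ ∀ c : Mon ι k → R,
      (∀ x ∈ Z.pts, ∀ ξ ∈ W.Tan x, polEv (fun α => eval x (c α)) (dS x s ξ) = 0) →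
        r * ∑ α, c α * ∏ i, s i ^ α.1 i ∈ sI s ^ (k + 1) ⊔ W.I := by
  obtain ⟨-, -, y, ρ, hy, hρ, hI⟩ := h.eqs hz
  obtain ⟨r₁, hr₁, hlc⟩ := h.isAlg.lc z hz
  have hH : ∀ i, ∃ H : Fin _ → R, ρ * s i - ∑ j, H j * y j ∈ W.I := fun i => by
    obtain ⟨w, hw, b, hb, e⟩ := Submodule.mem_sup.1 (hI _ (h.mem_I i))
    obtain ⟨H, rfl⟩ := Ideal.mem_span_range_iff_exists_fun.1 hb
    exact ⟨H, by rw [← e, add_sub_cancel_right]; exact hw⟩
  choose H hH using hH
  obtain ⟨S, hS, -⟩ := exists_subst k (Matrix.of H)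
  have hsZ : sI s ≤ Z.I := Ideal.span_le.2 (by rintro _ ⟨i, rfl⟩; exact h.mem_I i)
  have hle : sI y ≤ sI s := Ideal.span_le.2 (by rintro _ ⟨j, rfl⟩; exact hy j)
  have hrange : ∀ x ∈ Z.pts, eval x ρ ≠ 0 → eval x r₁ ≠ 0 →
      (W.Tan x).map (dS x s) = LinearMap.range (mev x (Matrix.of H)) := by
    intro x hx h1 h2
    refine Submodule.eq_of_le_of_finrank_le ?_ ?_
    · rintro _ ⟨ξ, hξ, rfl⟩
      refine ⟨(eval x ρ)⁻¹ • dS x y ξ, funext fun i => ?_⟩
      have h3 := hξ _ (hH i)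
      rw [Jac.dAt_sub, dAt_mul, h.mem_I i x hx, zero_mul, add_zero, Jac.dAt_sum, sub_eq_zero] at h3
      rw [map_smul, Pi.smul_apply, mev_apply, smul_eq_mul, inv_mul_eq_iff_eq_mul₀ h1, dS_apply, h3]
      refine Finset.sum_congr rfl fun j _ => ?_
      rw [dAt_mul, hsZ (hy j) x hx, zero_mul, add_zero]
      rfl
    · refine (LinearMap.finrank_range_le _).trans ?_
      rw [Module.finrank_fin_fun]
      exact (hlc x hx h2).ge
  refine ⟨ρ * (ρ * r₁) * ρ ^ k, by simp [hρ, hr₁], fun c hc => ?_⟩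
  have hc' : ∀ x, (fun β => eval x (∑ α, S β α * c α)) = mev x S fun α => eval x (c α) :=
    fun x => funext fun β => by rw [mev_apply]; simp
  have h1 : ∀ β, ρ * r₁ * ∑ α, S β α * c α ∈ Z.I := fun β x hx => by
    rw [map_mul, map_mul]
    by_cases e1 : eval x ρ = 0
    · rw [e1, zero_mul, zero_mul]
    by_cases e2 : eval x r₁ = 0
    · rw [e2, mul_zero, zero_mul]
    have : mev x S (fun α => eval x (c α)) = 0 := polEv_inj fun v => by
      rw [hS]
      have : mev x (Matrix.of H) v ∈ (W.Tan x).map (dS x s) := by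
        rw [hrange x hx e1 e2]; exact ⟨v, rfl⟩
      obtain ⟨ξ, hξ, e⟩ := this
      rw [← e]
      exact hc x hx ξ hξ
    rw [congrFun ((hc' x).trans this) β, Pi.zero_apply, mul_zero]
  have h2 : ρ ^ k * (∑ α, c α * ∏ i, s i ^ α.1 i) -
      ∑ β, (∑ α, S β α * c α) * ∏ j, y j ^ β.1 j ∈ W.I := fun x hx => by
    rw [map_sub, map_mul, eval_form, eval_form, hc', hS, map_pow, ← polEv_smul, sub_eq_zero]
    congr 1
    funext i
    have h3 := hH i x hx
    rw [map_sub, sub_eq_zero, map_mul, map_sum] at h3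
    rw [Pi.smul_apply, smul_eq_mul, h3, mev_apply]
    exact Finset.sum_congr rfl fun j _ => map_mul _ _ _
  have e : ρ * (ρ * r₁) * ρ ^ k * ∑ α, c α * ∏ i, s i ^ α.1 i =
      ρ * (ρ * r₁) * (ρ ^ k * (∑ α, c α * ∏ i, s i ^ α.1 i) -
        ∑ β, (∑ α, S β α * c α) * ∏ j, y j ^ β.1 j) +
      ∑ β, ρ * (ρ * r₁ * ∑ α, S β α * c α) * ∏ j, y j ^ β.1 j := by
    rw [mul_sub, Finset.mul_sum _ _ (ρ * (ρ * r₁))]
    simp only [mul_assoc]
    ring
  rw [e]
  refine add_mem (Ideal.mem_sup_right (Ideal.mul_mem_left _ _ h2)) (sum_mem fun β _ => ?_)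
  obtain ⟨w, hw, b, hb, e'⟩ := Submodule.mem_sup.1 (hI _ (h1 β))
  rw [← e', add_mul]
  refine add_mem (Ideal.mem_sup_right (Ideal.mul_mem_right _ _ hw)) (Ideal.mem_sup_left ?_)
  rw [pow_succ']
  exact Ideal.mul_mem_mul (hle hb) (mon_mem_pow hy β)

lemma mk_mem_ipw {I : Ideal R} {k : ℕ} {a : R} :
    ((Ideal.Quotient.mk W.I a : R ⧸ W.I) : (O W).M) ∈ ipw I (O W) k ↔ a ∈ I ^ k ⊔ W.I := by
  rw [← Ideal.mem_quotient_iff_mem_sup]
  exact (SetLike.ext_iff.1 (Ideal.smul_top_eq_map (S := R ⧸ W.I) (I ^ k)) _)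

lemma exists_rep {ι : Type} (W : Spc) (a : ι → R ⧸ W.I) :
    ∃ c : ι → R, a = fun i => Ideal.Quotient.mk W.I (c i) := by
  choose c hc using fun i => Ideal.Quotient.mk_surjective (a i)
  exact ⟨c, funext fun i => (hc i).symm⟩

set_option backward.isDefEq.respectTransparency false in
/-- `T = pw (monDeg) (O W) → I^k O_W`, `c ↦ ∑ c_α s^α`, is onto; the preimage `K₁` of `I^(k+1) O_W`
lies in `K₂ = {c | (N.van k).IsSec c}` (`jet`) and agrees with it locally (`mem_of_van`);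
`T / K₂ = pw (O Z) / (N.van k).actSub (O Z)` (`Bun.mem_act_O`); `cq_map`, `cq_loc`, `cq_add`,
`kl_smul`. -/
theorem Reg.gr {N : Bun Z} {s : N.ι → R} (h : Reg W Z s) (hh : ∀ i, Hmg (N.deg i) (s i))
    (hN : ∀ z ∈ Z.pts, N.L z = (W.Tan z).map (dS z s)) (k : ℕ) :
    cq Z (O W) (ipw (sI s) (O W) k) (ipw (sI s) (O W) (k + 1)) = Sd N k • one Z := by
  let T : GM := pw (monDeg N.deg k) (O W)
  let T' : GM := pw (monDeg N.deg k) (O Z)
  let f : T.M →ₗ[R] (O W).M :=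
    ∑ α : Mon N.ι k, (∏ i, s i ^ α.1 i) • (LinearMap.proj α : (Mon N.ι k → (O W).M) →ₗ[R] (O W).M)
  have hf1 : ∀ a : T.M, f a = ∑ α : Mon N.ι k, (∏ i, s i ^ α.1 i) • (a : Mon N.ι k → (O W).M) α :=
    fun a => LinearMap.sum_apply _ _ _
  have hf2 : ∀ c : Mon N.ι k → R, f (fun α => Ideal.Quotient.mk W.I (c α)) =
      Ideal.Quotient.mk W.I (∑ α, c α * ∏ i, s i ^ α.1 i) := fun c => by
    rw [hf1, map_sum]
    exact Finset.sum_congr rfl fun α _ => congrArg (Ideal.Quotient.mk W.I) (mul_comm _ _)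
  have hf : Deg0 f := fun a => by
    rw [hf1, hf1, map_sum]
    refine Finset.sum_congr rfl fun α _ => ?_
    have h1 : Hmg (-monDeg N.deg k α) (∏ i, s i ^ α.1 i) := by
      rw [monDeg, neg_neg]
      exact Hmg.prod _ fun i _ => (hh i).pow _
    rw [LinearMap.map_smulₛₗ, h1, mul_comm, mul_smul]
    rfl
  have hWZ : W.I ≤ Z.I := fun r hr x hx => hr x (h.sub.2 hx)
  let q : (O W).M →ₗ[R] (O Z).M := Submodule.factor hWZ
  let p : T.M →ₗ[R] T'.M := q.compLeft _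
  have hp2 : ∀ c : Mon N.ι k → R, p (fun α => Ideal.Quotient.mk W.I (c α)) =
      fun α => Ideal.Quotient.mk Z.I (c α) := fun _ => rfl
  have hq : Deg0 q := fun a => by
    obtain ⟨r, rfl⟩ := Ideal.Quotient.mk_surjective (I := W.I) a
    rfl
  have hp : Deg0 p := fun a => funext fun α =>
    (q.map_smul (C (chi (-monDeg N.deg k α)) : R) ((O W).g (a α))).trans (congrArg _ (hq (a α)))
  have hI := gam_span hh
  have hK : T.Stab ((ipw (sI s) (O W) (k + 1)).comap f) := stab_comap hf (stab_ipw hI _ _)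
  have hT : T.On W := (red_O W).on.pw (h.sub.1 ▸ (N.van k).hdeg)
  have hT' : T'.On Z := (red_O Z).on.pw (N.van k).hdeg
  have hmem : ∀ c : Mon N.ι k → R, p (fun α => Ideal.Quotient.mk W.I (c α)) ∈
      (N.van k).actSub (O Z) ↔
      ∀ x ∈ Z.pts, ∀ ξ ∈ W.Tan x, polEv (fun α => eval x (c α)) (dS x s ξ) = 0 := fun c => by
    refine ((N.van k).mem_act_O c).trans (forall₂_congr fun x hx => ?_)
    refine mem_vanOn.trans ?_
    rw [hN x hx]
    exact ⟨fun H ξ hξ => H _ ⟨ξ, hξ, rfl⟩, fun H => by rintro _ ⟨ξ, hξ, rfl⟩; exact H ξ hξ⟩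
  have e1 : cq Z T ⊤ ((ipw (sI s) (O W) (k + 1)).comap f) =
      cq Z (O W) (ipw (sI s) (O W) k) (ipw (sI s) (O W) (k + 1)) := by
    refine cq_map hf (stab_top _) hK (stab_ipw hI _ _) (stab_ipw hI _ _) (fun a _ => ?_)
      (fun _ _ => Iff.rfl) fun a' ha' => ?_
    · obtain ⟨c, rfl⟩ := exists_rep W a
      rw [hf2]
      exact mk_mem_ipw.2 (Ideal.mem_sup_left ((mem_pow_iff s k).2 ⟨c, rfl⟩))
    · obtain ⟨r, rfl⟩ := Ideal.Quotient.mk_surjective (I := W.I) a'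
      obtain ⟨b, hb, w, hw, rfl⟩ := Submodule.mem_sup.1 (mk_mem_ipw.1 ha')
      obtain ⟨c, rfl⟩ := (mem_pow_iff s k).1 hb
      refine ⟨fun α => Ideal.Quotient.mk W.I (c α), trivial, ?_⟩
      rw [hf2]
      refine (map_sub (Ideal.Quotient.mk W.I) _ _) ▸ mk_mem_ipw.2 (Ideal.mem_sup_right ?_)
      rw [sub_add_cancel_left]
      exact neg_mem hw
  have e2 : cq Z T ⊤ ((ipw (sI s) (O W) (k + 1)).comap f) =
      cq Z T' ⊤ ((N.van k).actSub (O Z)) := by
    refine cq_loc hp (stab_top _) hK (stab_top _) ((N.van k).stab_actSub _)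
      (h.sub.1 ▸ hT.deg) hT'.deg ?_ (sup_of_on hT' _ _) (fun _ _ => trivial) (fun a _ ha => ?_)
      fun x hx => ?_
    · refine sup_of_pow (s := s) (k := 1) h.sub (fun x hx h0 => (h.zero x hx).2 h0) hT
        fun r hr a _ => ?_
      obtain ⟨c, rfl⟩ := exists_rep W a
      rw [Submodule.mem_comap, map_smul, hf2]
      refine (mk_mem_ipw (a := r * _)).2 (Ideal.mem_sup_left ?_)
      rw [add_comm, pow_add]
      exact Ideal.mul_mem_mul hr ((mem_pow_iff s k).2 ⟨c, rfl⟩)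
    · obtain ⟨c, rfl⟩ := exists_rep W a
      rw [Submodule.mem_comap, hf2] at ha
      exact (hmem c).2 fun x hx ξ hξ => jet (h.sub.2 hx) (h.sm x hx) hξ s
        (fun i => h.mem_I i x hx) c (mk_mem_ipw.1 ha)
    · obtain ⟨r, hr, H⟩ := h.mem_of_van hx k
      refine ⟨r, hr, fun a _ ha => ?_, fun a' _ => ?_⟩
      · obtain ⟨c, rfl⟩ := exists_rep W a
        rw [Submodule.mem_comap, map_smul, hf2]
        exact (mk_mem_ipw (a := r * _)).2 (H c ((hmem c).1 ha))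
      · obtain ⟨c, hc⟩ := exists_rep Z (r • a')
        refine ⟨fun α => Ideal.Quotient.mk W.I (c α), trivial, ?_⟩
        rw [hp2, ← hc, sub_self]
        exact zero_mem _
  have e3 := cq_add (X := Z) (stab_top T') ((N.van k).stab_actSub (O Z)) (stab_bot T') le_top bot_le
    hT'.deg (sup_of_on hT' _ _)
  have e4 : (N.van k).amb.actSub (O Z) = ⊤ := eq_top_iff.2 fun u _ =>
    (N.van k).amb.act_top (fun _ _ => rfl) (red_O Z).ann (N := (O Z).M) u
  have e5 : cq Z T' ⊤ ⊥ = cl Z ((N.van k).amb.act (O Z)) := by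
    rw [← e4]
    exact cq_sub ((N.van k).amb.stab_actSub (O Z))
  have e6 : cq Z T' ((N.van k).actSub (O Z)) ⊥ = cl Z ((N.van k).act (O Z)) :=
    cq_sub ((N.van k).stab_actSub (O Z))
  rw [← e1, e2, Sd, sub_smul, one, kl_smul _ (red_O Z), kl_smul _ (red_O Z), ← e5, e3, e6]
  exact (add_sub_cancel_left _ _).symm

end Crest.Agent.N265.V
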