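import Crest.Agent.N265.V.Tame
import Crest.Agent.N265.V.ActSq
import Crest.Agent.N265.V.Smooth

/-! # Row 265, layer V: the refined Gysin map `psi : G W → G Q` (helper94) -/

set_option autoImplicit false
noncomputable section
open MvPolynomial Module

namespace Crest.Agent.N265.V
open GM Bun
variable {W W' Q Q' : Spc} {r : ℕ}

section
variable {E : Bun Q} {s : E.ι → R} (h : Cone W Q E s)
include h

theorem cone_sup {M : GM} (hM : M.Red W) {A B : Submodule R M.M} {k : ℕ}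
    (hk : ∀ r ∈ sI s ^ k, ∀ a ∈ A, r • a ∈ B) : Sup Q M A B :=
  sup_of_pow h.sub (fun x hx h0 => (h.zero x hx).2 h0) hM.on hk
theorem cone_sup_ipw {M : GM} (hM : M.Red W) (A : Submodule R M.M) (k : ℕ) :
    Sup Q M A (ipw (sI s) M k) := cone_sup h hM fun _ hr a _ => smul_mem_ipw hr a
theorem cone_deg {M : GM} (hM : M.Red W) : M.DegIn Q.B := h.sub.1 ▸ hM.deg
theorem tame_grs (hr : E.Rk r) {M : GM} (hM : M.Red W) : Tame (Lam E) (grs Q (sI s) M) :=
  h.toSyz.tame hr hM (sys_ipw (gam_span h.hmg) M) (sys_ipw_succ (gam_span h.hmg) M)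
    fun k => cone_sup_ipw h hM _ (k + 1)

/-- the induced filtration on a submodule gives the same value -/
theorem ev_induced (hr : E.Rk r) {M N : GM} (hM : M.Red W) (f : N.M →ₗ[R] M.M) (hf : Deg0 f)
    (hi : Function.Injective f) :
    Tame (Lam E) (zs fun k => cq Q M (LinearMap.range f ⊓ ipw (sI s) M k)
      (LinearMap.range f ⊓ ipw (sI s) M (k + 1))) ∧
    ev (Lam E) (zs fun k => cq Q M (LinearMap.range f ⊓ ipw (sI s) M k)
      (LinearMap.range f ⊓ ipw (sI s) M (k + 1))) = ev (Lam E) (grs Q (sI s) N) := by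
  have hI : ∀ r ∈ sI s, gam r ∈ sI s := gam_span h.hmg
  have hF := (sys_ipw hI M).inf hf.stab_range
  have hP := sys_map hI hf
  have hle : ∀ k, (ipw (sI s) N k).map f ≤ LinearMap.range f ⊓ ipw (sI s) M k :=
    fun k => le_inf LinearMap.map_le_range (map_ipw_le f k)
  have hS : ∀ j k, Sup Q M (LinearMap.range f ⊓ ipw (sI s) M j) ((ipw (sI s) N k).map f) :=
    fun j k => cone_sup h hM (k := k) <| by
      rintro c hc _ ⟨⟨n, rfl⟩, -⟩
      exact ⟨c • n, smul_mem_ipw hc n, map_smul f c n⟩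
  obtain ⟨t1, t2⟩ := ev_tele (h.toSyz.tame hr hM hF hP fun k => hS k k)
  have tN := tame_grs h hr (hM.of_inj hf hi)
  have key : (zs fun k => cq Q M (LinearMap.range f ⊓ ipw (sI s) M k)
      (LinearMap.range f ⊓ ipw (sI s) M (k + 1))) = grs Q (sI s) N + zs fun k =>
        cq Q M (LinearMap.range f ⊓ ipw (sI s) M k) ((ipw (sI s) N k).map f) -
        cq Q M (LinearMap.range f ⊓ ipw (sI s) M (k + 1)) ((ipw (sI s) N (k + 1)).map f) := by
    rw [grs, ← zs_add]
    congr 1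
    funext k
    have e1 := cq_add (hF.stab k) (hF.stab (k + 1)) (hP.stab (k + 1))
      (inf_le_inf_left _ (ipw_succ_le _ M k)) (hle (k + 1)) (cone_deg h hM) (hS k (k + 1))
    have e2 := cq_add (hF.stab k) (hP.stab k) (hP.stab (k + 1)) (hle k)
      (Submodule.map_mono (ipw_succ_le _ N k)) (cone_deg h hM) (hS k (k + 1))
    have e3 : cq Q N (ipw (sI s) N k) (ipw (sI s) N (k + 1)) =
        cq Q M ((ipw (sI s) N k).map f) ((ipw (sI s) N (k + 1)).map f) :=
      cq_map hf (stab_ipw hI N k) (stab_ipw hI N (k + 1)) (hP.stab k) (hP.stab (k + 1))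
        (fun a ha => ⟨a, ha, rfl⟩)
        (fun a _ => ⟨fun ha => ⟨a, ha, rfl⟩, fun ⟨b, hb, e⟩ => hi e ▸ hb⟩)
        (by rintro _ ⟨a, ha, rfl⟩; exact ⟨a, ha, by rw [sub_self]; exact zero_mem _⟩)
    rw [Pi.add_apply, e3, ← add_sub_assoc, ← e2, e1, add_sub_cancel_left]
  rw [key]
  refine ⟨tN.add t1, ?_⟩
  rw [ev_add tN t1, t2, cq_of_le, smul_zero, add_zero]
  rintro _ ⟨⟨n, rfl⟩, -⟩
  exact ⟨n, by rw [ipw_zero]; trivial, rfl⟩

theorem ev_ses (hr : E.Rk r) {A B C : GM} (hs : GM.SES A B C) (hB : B.Red W) :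
    ev (Lam E) (grs Q (sI s) B) = ev (Lam E) (grs Q (sI s) A) + ev (Lam E) (grs Q (sI s) C) := by
  obtain ⟨f, p, hf, hp, hi, he, hs⟩ := hs
  have hI : ∀ r ∈ sI s, gam r ∈ sI s := gam_span h.hmg
  obtain ⟨t1, t2⟩ := ev_induced h hr hB f hf hi
  rw [← t2, ← ev_add t1 (tame_grs h hr (hB.of_surj hp hs)), grs, grs, ← zs_add]
  congr 2
  funext k
  have hF := ((sys_ipw hI B).inf hf.stab_range).stab
  have hm := stab_sup (stab_ipw hI B (k + 1)) (hF k)
  rw [cq_add (stab_ipw hI B k) hm (stab_ipw hI B (k + 1))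
    (sup_le (ipw_succ_le _ B k) inf_le_right) le_sup_left (cone_deg h hB)
    (cone_sup_ipw h hB _ _), Pi.add_apply]
  congr 1
  · refine (cq_map (f := LinearMap.id) (fun _ => rfl) (hF k) (hF (k + 1)) hm
      (stab_ipw hI B (k + 1)) (fun a ha => Submodule.mem_sup_right ha)
      (fun a ha => ⟨fun h => h.2, fun h => ⟨ha.1, h⟩⟩) fun a ha => ?_).symm
    obtain ⟨x, hx, y, hy, rfl⟩ := Submodule.mem_sup.1 ha
    exact ⟨y, hy, by simpa using hx⟩
  · refine cq_map hp (stab_ipw hI B k) hm (stab_ipw hI C k) (stab_ipw hI C (k + 1))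
      (fun a ha => map_ipw_le p k ⟨a, ha, rfl⟩) (fun a ha => ⟨fun h' => ?_, fun h' => ?_⟩)
      fun c hc => ?_
    · obtain ⟨x, hx, y, hy, rfl⟩ := Submodule.mem_sup.1 h'
      rw [map_add, (he y).2 hy.1, add_zero]
      exact map_ipw_le p _ ⟨x, hx, rfl⟩
    · rw [← map_ipw p hs] at h'
      obtain ⟨x, hx, e⟩ := h'
      refine Submodule.mem_sup.2 ⟨x, hx, a - x, ⟨(he _).1 (by rw [map_sub, e, sub_self]),
        sub_mem ha (ipw_succ_le _ B k hx)⟩, add_sub_cancel x a⟩
    · rw [← map_ipw p hs] at hc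
      obtain ⟨a, ha, rfl⟩ := hc
      exact ⟨a, ha, by rw [sub_self]; exact zero_mem _⟩
end

theorem exists_psi {E : Bun Q} {s : E.ι → R} (h : Cone W Q E s) (hr : E.Rk r) :
    ∃ Ψ : G W →+ G Q, ∀ M : GM, M.Red W → Ψ (cl W M) = ev (Lam E) (grs Q (sI s) M) := by
  refine G.exists_liftRed _ (fun A B C hs hB => ev_ses h hr hs hB) fun A _ hi => ?_
  have : (fun k => cq Q A (ipw (sI s) A k) (ipw (sI s) A (k + 1))) = 0 := funext fun k =>
    cq_irr fun x hx => (hi x (h.sub.2 hx)).imp fun _ hc => ⟨hc.1, fun a _ => by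
      rw [hc.2]; exact zero_mem _⟩
  rw [grs, this, zs_zero, ev_zero]
/-- the refined Gysin map -/
def psi {E : Bun Q} {s : E.ι → R} (h : Cone W Q E s) (hr : E.Rk r) : G W →+ G Q :=
  (exists_psi h hr).choose
theorem psi_cl {E : Bun Q} {s : E.ι → R} (h : Cone W Q E s) (hr : E.Rk r) {M : GM} (hM : M.Red W) :
    psi h hr (cl W M) = ev (Lam E) (grs Q (sI s) M) := (exists_psi h hr).choose_spec M hM

theorem psi_kl {E : Bun Q} {s : E.ι → R} (h : Cone W Q E s) (hr : E.Rk r) (A : Bun W) {M : GM}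
    (hM : M.Red W) : psi h hr (A.kl • cl W M) = K.pull h.sub.proj A.kl • psi h hr (cl W M) := by
  have hI : ∀ r ∈ sI s, gam r ∈ sI s := gam_span h.hmg
  have := (ev_induced h hr (hM.pw A.hdeg) (N := A.act M) (A.actSub M).subtype
    (deg0_subtype (A.stab_actSub M)) Subtype.val_injective).2
  rw [kl_smul A hM, psi_cl h hr (A.red_act hM), ← this, psi_cl h hr hM, ← op_smul,
    ← ev_smul (tame_grs h hr hM), grs, ← zs_smul]
  congr 2
  funext k
  rw [op_smul, K.pull_kl, ← act_sq h.sub A hM (stab_ipw hI M k) (stab_ipw hI M (k + 1))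
    (ipw_succ_le _ M k) (cone_sup_ipw h hM _ _), ipw_pw, ipw_pw]
  congr 2 <;> exact Submodule.range_subtype _
theorem psi_smul {E : Bun Q} {s : E.ι → R} (h : Cone W Q E s) (hr : E.Rk r) (u : Op W) (a : G W) :
    psi h hr (u • a) = Op.pull h.sub.proj u • psi h hr a := by
  obtain ⟨u, rfl⟩ := op_surj u
  rw [Op.pull_op, op_smul, op_smul]
  induction a using G.ind_red with
  | h0 => simp
  | hneg a ha => rw [smul_neg, map_neg, map_neg, ha, smul_neg]
  | hadd a b ha hb => rw [smul_add, map_add, map_add, ha, hb, smul_add]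
  | hcl M hM =>
    induction u using K.ind with
    | h0 => simp
    | hkl A => exact psi_kl h hr A hM
    | hneg u hu => rw [neg_smul, map_neg, map_neg, hu, neg_smul]
    | hadd u v hu hv => rw [add_smul, map_add, map_add, hu, hv, add_smul]

theorem incl_smul (hQ : Q'.Sub Q) (c : Op Q) (x : G Q') :
    incl Q' Q (Op.pull hQ.proj c • x) = c • incl Q' Q x := by
  rw [← push_eq_incl hQ, push_smul]

theorem psi_incl {E : Bun Q} {s : E.ι → R} (h : Cone W Q E s) (hr : E.Rk r) (hW : W'.Sub W)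
    (hQ : Q'.Sub Q) (h' : Cone W' Q' (E.pull hQ.proj) s) (a : G W') :
    psi h hr (incl W' W a) = incl Q' Q (psi h' (hr.pull _) a) := by
  refine DFunLike.congr_fun (G.hom_ext_red (φ := (psi h hr).comp (incl W' W))
    (ψ := (incl Q' Q).comp (psi h' (hr.pull _))) fun M hM => ?_) a
  have t := tame_grs h' (hr.pull _) hM
  rw [Lam_pull] at t
  rw [AddMonoidHom.comp_apply, AddMonoidHom.comp_apply, incl_cl hW hM.on, psi_cl h hr (hM.mono hW),
    psi_cl h' _ hM, Lam_pull, (t.push _ _ (incl_smul hQ)).2]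
  congr 1
  rw [grs, grs, ← zs_map]
  congr 1
  funext k
  exact (incl_cq hQ (cone_deg h (hM.mono hW)) (cone_sup_ipw h' hM _ _)).symm

theorem incl_psi {E : Bun W} {s : E.ι → R} (hr : E.Rk r) (hs : E.IsSec s) (hQ : Q.Sub W)
    (h : Cone W Q (E.pull hQ.proj) s) (a : G W) :
    incl Q W (psi h (hr.pull _) a) = eu E • a := by
  induction a using G.ind_red with
  | h0 => simp
  | hneg a ha => rw [map_neg, map_neg, ha, smul_neg]
  | hadd a b ha hb => rw [map_add, map_add, ha, hb, smul_add]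
  | hcl M hM =>
    have hI : ∀ r ∈ sI s, gam r ∈ sI s := gam_span h.hmg
    have t := tame_grs h (hr.pull _) hM
    rw [Lam_pull] at t
    have t2 := (ev_tele ((syz_of_sec E hs h.hmg).tame hr hM (sys_ipw hI M) (sys_bot M _)
      fun k => sup_of_on hM.on _ _)).2
    rw [ipw_zero, cq_top_bot] at t2
    rw [psi_cl h _ hM, Lam_pull, (t.push _ _ (incl_smul hQ)).2, eu, ← t2]
    congr 1
    rw [grs, ← zs_map]
    congr 1
    funext k
    rw [incl_cq hQ hM.deg (cone_sup_ipw h hM _ _), cq_add (stab_ipw hI M k) (stab_ipw hI M (k + 1))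
      (stab_bot M) (ipw_succ_le _ M k) bot_le hM.deg (sup_of_on hM.on _ _), add_sub_cancel_left]
    rfl

theorem psi_one {E : Bun Q} {s : E.ι → R} (h : Cone W Q E s) (hr : E.Rk r) (hR : Reg W Q s)
    {C : Bun Q} (hC : E.kl = (hR.nor h.hmg).kl + C.kl) : psi h hr (one W) = eu C • one Q := by
  obtain ⟨t1, t2⟩ := ev_inv (Lam_mul_SdS (hR.nor h.hmg)) (one Q)
  have : grs Q (sI s) (O W) = zs fun k => PowerSeries.coeff k (SdS (hR.nor h.hmg)) • one Q := by
    rw [grs]
    congr 1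
    funext k
    rw [SdS, PowerSeries.coeff_mk, op_smul]
    exact Reg.gr (N := hR.nor h.hmg) hR h.hmg (fun _ _ => rfl) k
  rw [one, psi_cl h hr (red_O W), this, Lam_add hC, mul_comm, ev_mul t1, t2, eu]

end Crest.Agent.N265.V
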