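import Crest.Agent.N265.V.Cone

/-!
# Row 265, layer V: the Rees module as a graded module (helper94)

`RD M` : elements `s i` of `R` and variables `y i` of a fresh block with
`deg (y i) = deg (s i) + τ`.  On `M[T]` the variable `y i` acts as `s i · T`.
`rees ρ` is the graded module `⊕ I^k M T^k`; `rs ρ A` the submodule `⊕ A k T^k`.
-/

set_option autoImplicit false
noncomputable section
open MvPolynomial

namespace Crest.Agent.N265.V

open GM

theorem isNoetherian_of_fin {N : Type} [AddCommGroup N] [Module R N] [Module.Finite R N]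
    (h : ∃ V : Finset Var, ∀ v ∉ V, ∀ m : N, (X v : R) • m = 0) : IsNoetherian R N := by
  obtain ⟨V, hV⟩ := h
  have hJ : Jac.FinJ (Module.annihilator R N) := ⟨V, fun v hv => Module.mem_annihilator.2 (hV v hv)⟩
  have := hJ.noeth
  have hT : Module.IsTorsionBySet R N (Module.annihilator R N) :=
    Module.isTorsionBySet_annihilator R N
  let _ := hT.module
  have : IsScalarTower R (R ⧸ Module.annihilator R N) N := hT.isScalarTower
  have : Module.Finite (R ⧸ Module.annihilator R N) N := Module.Finite.of_restrictScalars_finite R _ _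
  have h1 : IsNoetherian (R ⧸ Module.annihilator R N) N := inferInstance
  rw [isNoetherian_iff'] at h1 ⊢
  let φ : Submodule R N → Submodule (R ⧸ Module.annihilator R N) N := fun P =>
    { carrier := P
      add_mem' := P.add_mem
      zero_mem' := P.zero_mem
      smul_mem' := by
        intro c x hx
        obtain ⟨c, rfl⟩ := Ideal.Quotient.mk_surjective c
        exact P.smul_mem c hx }
  have hφ : StrictMono φ := fun _ _ h => h
  exact hφ.wellFoundedGT

/-- data for a Rees construction -/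
structure RD (M : GM) where
  B : Finset ℕ
  γ : ℕ
  new : γ ∉ B
  deg : M.DegIn B
  ι : Type
  [fin : Fintype ι]
  s : ι → R
  d : ι → D
  hs : ∀ i, Hmg (d i) (s i)
  y : ι → Var
  yinj : Function.Injective y
  blk : ∀ i, (y i).1 = γ
  δ : D
  hδ : δ ∈ DS B
  hy : ∀ i, vdeg (y i) = d i + (eB γ - δ)

attribute [instance] RD.fin

namespace RD
variable {M : GM} (ρ : RD M)

/-- the degree of `T` -/
def τ : D := eB ρ.γ - ρ.δ
theorem gam_I : ∀ r ∈ sI ρ.s, gam r ∈ sI ρ.s := gam_span ρ.hs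
theorem y_new (i : ρ.ι) : (ρ.y i).1 ∉ ρ.B := by rw [ρ.blk]; exact ρ.new

open Classical in
/-- `y i ↦ s i · T` -/
def θ : R →+* Polynomial R := (aeval (R := ℂ) fun v =>
  if h : ∃ i, ρ.y i = v then Polynomial.monomial 1 (ρ.s h.choose) else Polynomial.C (X v)).toRingHom

theorem θ_C (c : ℂ) : ρ.θ (C c) = Polynomial.C (C c) := by simp [θ]
theorem θ_y (i : ρ.ι) : ρ.θ (X (ρ.y i)) = Polynomial.monomial 1 (ρ.s i) := by
  have h : ∃ j, ρ.y j = ρ.y i := ⟨i, rfl⟩
  simp only [θ, AlgHom.toRingHom_eq_coe, RingHom.coe_coe, aeval_X, dif_pos h]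
  rw [ρ.yinj h.choose_spec]
theorem θ_X {v : Var} (h : ¬ ∃ i, ρ.y i = v) : ρ.θ (X v) = Polynomial.C (X v) := by
  simp only [θ, AlgHom.toRingHom_eq_coe, RingHom.coe_coe, aeval_X, dif_neg h]

theorem θ_kill (r : R) : ρ.θ (kill ρ.B r) = Polynomial.C (kill ρ.B r) := by
  induction r using MvPolynomial.induction_on with
  | C c => rw [show kill ρ.B (C c) = C c by simp [kill], θ_C]
  | add p q hp hq => simp only [map_add, hp, hq]
  | mul_X p v hp =>
    by_cases h : v.1 ∈ ρ.B
    · have h' : ¬ ∃ i, ρ.y i = v := by rintro ⟨i, rfl⟩; exact ρ.y_new i h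
      have : kill ρ.B (X v) = X v := by simp [kill, h]
      simp only [map_mul, hp, this, ρ.θ_X h']
    · have : kill ρ.B (X v) = 0 := by simp [kill, h]
      simp only [map_mul, this, mul_zero, map_zero]

/-- `M[T]` with the twisted action -/
def PM (_ : RD M) : Type := PolynomialModule R M.M
instance : AddCommGroup ρ.PM := inferInstanceAs (AddCommGroup (PolynomialModule R M.M))
instance : Module (Polynomial R) ρ.PM :=
  inferInstanceAs (Module (Polynomial R) (PolynomialModule R M.M))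
instance : Module R ρ.PM := Module.compHom _ ρ.θ
theorem smul_def (r : R) (f : ρ.PM) : r • f = ρ.θ r • f := rfl

/-- coefficients -/
def co (k : ℕ) : ρ.PM →+ M.M where
  toFun f := PolynomialModule.coeff (R := R) f k
  map_zero' := rfl
  map_add' _ _ := rfl
/-- `m T^k` -/
def sg (k : ℕ) : M.M →+ ρ.PM where
  toFun m := PolynomialModule.single R k m
  map_zero' := PolynomialModule.single_zero k
  map_add' _ _ := PolynomialModule.single_add k _ _

theorem co_sg (k j : ℕ) (m : M.M) : ρ.co j (ρ.sg k m) = if k = j then m else 0 := by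
  change (Finsupp.single k m) j = _
  rw [Finsupp.single_apply]
theorem co_sg_self (k : ℕ) (m : M.M) : ρ.co k (ρ.sg k m) = m := by rw [co_sg, if_pos rfl]
theorem ext_co {f f' : ρ.PM} (h : ∀ k, ρ.co k f = ρ.co k f') : f = f' :=
  PolynomialModule.coeff_injective (Finsupp.ext h)
theorem exists_supp (f : ρ.PM) : ∃ S : Finset ℕ, ∀ k ∉ S, ρ.co k f = 0 :=
  ⟨(PolynomialModule.coeff (R := R) f).support, fun _ h => Finsupp.notMem_support_iff.1 h⟩
theorem exists_sum (f : ρ.PM) : ∃ S : Finset ℕ, f = ∑ k ∈ S, ρ.sg k (ρ.co k f) := by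
  obtain ⟨S, hS⟩ := ρ.exists_supp f
  refine ⟨S, ρ.ext_co fun j => ?_⟩
  rw [map_sum]
  simp only [co_sg, Finset.sum_ite_eq']
  split_ifs with h
  · rfl
  · exact hS j h

theorem co_monomial (i : ℕ) (r : R) (f : ρ.PM) (n : ℕ) :
    ρ.co n (Polynomial.monomial i r • f) = if i ≤ n then r • ρ.co (n - i) f else 0 :=
  PolynomialModule.monomial_smul_apply i r f n
theorem co_C (r : R) (f : ρ.PM) (n : ℕ) : ρ.co n (Polynomial.C r • f) = r • ρ.co n f := by
  rw [← Polynomial.monomial_zero_left, co_monomial]; simp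
theorem co_c (c : ℂ) (f : ρ.PM) (n : ℕ) : ρ.co n ((C c : R) • f) = (C c : R) • ρ.co n f := by
  rw [smul_def, θ_C, co_C]
theorem co_kill (r : R) (f : ρ.PM) (n : ℕ) : ρ.co n (kill ρ.B r • f) = r • ρ.co n f := by
  rw [smul_def, θ_kill, co_C, ρ.deg.kill_smul]
theorem co_y_zero (i : ρ.ι) (f : ρ.PM) : ρ.co 0 ((X (ρ.y i) : R) • f) = 0 := by
  rw [smul_def, θ_y, co_monomial]; simp
theorem co_y_succ (i : ρ.ι) (f : ρ.PM) (n : ℕ) :
    ρ.co (n + 1) ((X (ρ.y i) : R) • f) = ρ.s i • ρ.co n f := by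
  rw [smul_def, θ_y, co_monomial]; simp
theorem co_X {v : Var} (h : ¬ ∃ i, ρ.y i = v) (f : ρ.PM) (n : ℕ) :
    ρ.co n ((X v : R) • f) = (X v : R) • ρ.co n f := by
  rw [smul_def, ρ.θ_X h, co_C]
theorem kill_sg (r : R) (k : ℕ) (m : M.M) : kill ρ.B r • ρ.sg k m = ρ.sg k (r • m) :=
  ρ.ext_co fun j => by rw [co_kill, co_sg, co_sg]; split_ifs <;> simp
theorem y_sg (i : ρ.ι) (k : ℕ) (m : M.M) :
    (X (ρ.y i) : R) • ρ.sg k m = ρ.sg (k + 1) (ρ.s i • m) :=
  ρ.ext_co fun j => by
    cases j with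
    | zero => rw [co_y_zero, co_sg]; simp
    | succ j => rw [co_y_succ, co_sg, co_sg]; by_cases h : k = j <;> simp [h]

/-- the grading operator on `M[T]` -/
def g0 (f : ρ.PM) : ρ.PM := PolynomialModule.ofCoeff R <|
  Finsupp.onFinset (PolynomialModule.coeff (R := R) f).support
    (fun k => (C (chi (k • ρ.τ)) : R) • M.g (ρ.co k f)) fun k hk => by
      by_contra h
      have : ρ.co k f = 0 := Finsupp.notMem_support_iff.1 h
      exact hk (by simp only [this, map_zero, smul_zero])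
theorem co_g0 (f : ρ.PM) (k : ℕ) :
    ρ.co k (ρ.g0 f) = (C (chi (k • ρ.τ)) : R) • M.g (ρ.co k f) := rfl
theorem g0_add (f f' : ρ.PM) : ρ.g0 (f + f') = ρ.g0 f + ρ.g0 f' :=
  ρ.ext_co fun k => by simp only [co_g0, map_add, smul_add]
theorem g0_smul (r : R) (f : ρ.PM) : ρ.g0 (r • f) = gam r • ρ.g0 f := by
  induction r using MvPolynomial.induction_on generalizing f with
  | C c =>
    refine ρ.ext_co fun k => ?_
    rw [gam_C, co_g0, co_c, co_c, co_g0, LinearMap.map_smulₛₗ, gam_C, smul_comm]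
  | add p q hp hq => rw [add_smul, g0_add, hp, hq, map_add, add_smul]
  | mul_X p v hp =>
    rw [mul_smul, hp, map_mul, mul_smul]
    congr 1
    refine ρ.ext_co fun k => ?_
    rw [gam_X, mul_smul, co_c, co_g0]
    by_cases h : ∃ i, ρ.y i = v
    · obtain ⟨i, rfl⟩ := h
      cases k with
      | zero => simp only [co_y_zero, map_zero, smul_zero]
      | succ k =>
        rw [co_y_succ, co_y_succ, co_g0, LinearMap.map_smulₛₗ, ρ.hs i, ρ.hy, succ_nsmul, chi_add,
          chi_add, smul_smul, smul_smul, smul_smul, map_mul, map_mul]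
        congr 1
        change _ = C (chi (ρ.d i)) * C (chi ρ.τ) * _ * _
        ring
    · rw [ρ.co_X h, ρ.co_X h, co_g0, LinearMap.map_smulₛₗ, gam_X, smul_smul, smul_smul, smul_smul]
      congr 1; ring
/-- the grading operator as a semilinear map -/
def g : ρ.PM →ₛₗ[gam] ρ.PM := { toFun := ρ.g0, map_add' := ρ.g0_add, map_smul' := ρ.g0_smul }
theorem co_g (f : ρ.PM) (k : ℕ) : ρ.co k (ρ.g f) = (C (chi (k • ρ.τ)) : R) • M.g (ρ.co k f) := rfl
theorem g_sg {e : D} {m : M.M} (hm : m ∈ M.gr e) (k : ℕ) :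
    ρ.g (ρ.sg k m) = (C (chi (e + k • ρ.τ)) : R) • ρ.sg k m :=
  ρ.ext_co fun j => by
    rw [co_g, co_c, co_sg]
    split_ifs with h
    · rw [mem_gr.1 hm, h, chi_add, map_mul, smul_smul, mul_comm]
    · simp

/-- `⊕ A k T^k` -/
def ps (A : ℕ → Submodule R M.M) (hA : ∀ k, ∀ r ∈ sI ρ.s, ∀ a ∈ A k, r • a ∈ A (k + 1)) :
    Submodule R ρ.PM where
  carrier := {f | ∀ k, ρ.co k f ∈ A k}
  add_mem' := fun ha hb k => by rw [map_add]; exact add_mem (ha k) (hb k)
  zero_mem' := fun k => by rw [map_zero]; exact zero_mem _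
  smul_mem' := by
    intro r f hf
    induction r using MvPolynomial.induction_on generalizing f with
    | C c => intro k; rw [co_c]; exact Submodule.smul_mem _ _ (hf k)
    | add p q hp hq => intro k; rw [add_smul, map_add]; exact add_mem (hp hf k) (hq hf k)
    | mul_X p v hp =>
      rw [mul_smul]
      refine hp fun k => ?_
      by_cases h : ∃ i, ρ.y i = v
      · obtain ⟨i, rfl⟩ := h
        cases k with
        | zero => rw [co_y_zero]; exact zero_mem _
        | succ k => rw [co_y_succ]; exact hA k _ (mem_sI _ i) _ (hf k)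
      · rw [ρ.co_X h]; exact Submodule.smul_mem _ _ (hf k)
theorem sg_mem_ps {A : ℕ → Submodule R M.M} (hA) {k : ℕ} {a : M.M} (ha : a ∈ A k) :
    ρ.sg k a ∈ ρ.ps A hA := fun j => by
  rw [co_sg]
  split_ifs with h
  · exact h ▸ ha
  · exact zero_mem _

/-- `⊕ I^k M T^k` -/
def rs0 : Submodule R ρ.PM := ρ.ps (ipw (sI ρ.s) M) (sys_ipw ρ.gam_I M).mul

theorem rs0_fg : ρ.rs0.FG := by
  classical
  obtain ⟨S, hS⟩ := Module.Finite.fg_top (R := R) (M := M.M)
  refine ⟨S.image (ρ.sg 0), le_antisymm ?_ fun f hf => ?_⟩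
  · rw [Submodule.span_le, Finset.coe_image]
    rintro _ ⟨m, -, rfl⟩
    exact ρ.sg_mem_ps _ (by rw [ipw_zero]; trivial)
  have key : ∀ k, ∀ a ∈ ipw (sI ρ.s) M k,
      ρ.sg k a ∈ Submodule.span R (↑(S.image (ρ.sg 0)) : Set ρ.PM) := by
    intro k
    induction k with
    | zero =>
      intro a ha
      clear ha
      have ha : a ∈ Submodule.span R (↑S : Set M.M) := hS ▸ trivial
      induction ha using Submodule.span_induction with
      | mem x hx => exact Submodule.subset_span (by rw [Finset.coe_image]; exact ⟨x, hx, rfl⟩)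
      | zero => rw [map_zero]; exact zero_mem _
      | add x y _ _ hx hy => rw [map_add]; exact add_mem hx hy
      | smul r x _ hx => rw [← kill_sg]; exact Submodule.smul_mem _ _ hx
    | succ k ih =>
      intro a ha
      rw [ipw_succ] at ha
      refine Submodule.smul_induction_on ha (fun r hr a ha => ?_) fun x y hx hy => ?_
      · induction hr using Submodule.span_induction generalizing a with
        | mem x hx =>
          obtain ⟨i, rfl⟩ := hx
          rw [← y_sg]; exact Submodule.smul_mem _ _ (ih a ha)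
        | zero => rw [zero_smul, map_zero]; exact zero_mem _
        | add x y _ _ hx hy => rw [add_smul, map_add]; exact add_mem (hx a ha) (hy a ha)
        | smul c x _ hx =>
          rw [smul_eq_mul, mul_comm, mul_smul]
          exact hx _ (Submodule.smul_mem _ _ ha)
      · rw [map_add]; exact add_mem hx hy
  obtain ⟨T, hT⟩ := ρ.exists_sum f
  rw [hT]
  exact Submodule.sum_mem _ fun k _ => key k _ (hf k)

theorem exists_V : ∃ V : Finset Var, ∀ v ∉ V, ∀ f : ρ.PM, (X v : R) • f = 0 := by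
  classical
  obtain ⟨V, hV⟩ := M.fin
  refine ⟨V ∪ Finset.univ.image ρ.y, fun v hv f => ρ.ext_co fun k => ?_⟩
  rw [Finset.mem_union, not_or] at hv
  rw [ρ.co_X (by simpa using hv.2), hV v hv.1, map_zero]

theorem g_mem_ps {A : ℕ → Submodule R M.M} (hA) (hs : ∀ k, M.Stab (A k)) {f : ρ.PM}
    (hf : f ∈ ρ.ps A hA) : ρ.g f ∈ ρ.ps A hA := fun k => by
  rw [co_g]; exact Submodule.smul_mem _ _ (hs k _ (hf k))

/-- the Rees module -/
def rees : GM where
  M := ρ.rs0
  noeth := by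
    have : Module.Finite R ρ.rs0 := Module.Finite.iff_fg.2 ρ.rs0_fg
    exact isNoetherian_of_fin (ρ.exists_V.imp fun _ h v hv m => Subtype.ext (h v hv m.1))
  fin := ρ.exists_V.imp fun _ h v hv m => Subtype.ext (h v hv m.1)
  g := (ρ.g.domRestrict ρ.rs0).codRestrict ρ.rs0 fun m =>
    ρ.g_mem_ps _ (stab_ipw ρ.gam_I M) m.2
  diag := by
    rintro ⟨f, hf⟩
    obtain ⟨T, hT⟩ := ρ.exists_sum f
    have : (⟨f, hf⟩ : ρ.rs0) = ∑ k ∈ T, ⟨ρ.sg k (ρ.co k f), ρ.sg_mem_ps _ (hf k)⟩ :=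
      Subtype.ext (by rw [Submodule.coe_sum]; exact hT)
    rw [this]
    refine AddSubgroup.sum_mem _ fun k _ => ?_
    refine stab_induction (stab_ipw ρ.gam_I M k) (P := fun a => ∀ ha : a ∈ ipw (sI ρ.s) M k,
      (⟨ρ.sg k a, ρ.sg_mem_ps _ ha⟩ : ρ.rs0) ∈ AddSubgroup.closure _) ?_ ?_ ?_ _ (hf k) (hf k)
    · intro ha
      have : (⟨ρ.sg k 0, ρ.sg_mem_ps _ ha⟩ : ρ.rs0) = 0 := Subtype.ext (map_zero _)
      rw [this]; exact zero_mem _
    · intro x hx y hy h1 h2 ha
      have : (⟨ρ.sg k (x + y), ρ.sg_mem_ps _ ha⟩ : ρ.rs0) =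
          ⟨ρ.sg k x, ρ.sg_mem_ps _ hx⟩ + ⟨ρ.sg k y, ρ.sg_mem_ps _ hy⟩ := Subtype.ext (map_add _ _ _)
      rw [this]; exact add_mem (h1 hx) (h2 hy)
    · intro e x hx _ ha
      exact AddSubgroup.subset_closure ⟨e + k • ρ.τ, Subtype.ext (ρ.g_sg hx k)⟩

/-- the underlying polynomial -/
def val (f : ρ.rees.M) : ρ.PM := Subtype.val f
theorem val_inj {f f' : ρ.rees.M} (h : ρ.val f = ρ.val f') : f = f' := Subtype.ext h
theorem val_g (f : ρ.rees.M) : ρ.val (ρ.rees.g f) = ρ.g (ρ.val f) := rfl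
theorem val_smul (r : R) (f : ρ.rees.M) : ρ.val (r • f) = r • ρ.val f := rfl
theorem val_sub (f f' : ρ.rees.M) : ρ.val (f - f') = ρ.val f - ρ.val f' := rfl
theorem val_add (f f' : ρ.rees.M) : ρ.val (f + f') = ρ.val f + ρ.val f' := rfl
theorem val_zero : ρ.val 0 = 0 := rfl
/-- `⊕ A k T^k` inside the Rees module -/
def rs {A : ℕ → Submodule R M.M} (hA : Sys M (sI ρ.s) A) : Submodule R ρ.rees.M :=
  (ρ.ps A hA.mul).comap ρ.rs0.subtype
theorem mem_rs {A : ℕ → Submodule R M.M} (hA : Sys M (sI ρ.s) A) {f : ρ.rees.M} :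
    f ∈ ρ.rs hA ↔ ∀ k, ρ.co k (ρ.val f) ∈ A k := Iff.rfl
theorem stab_rs {A : ℕ → Submodule R M.M} (hA : Sys M (sI ρ.s) A) : ρ.rees.Stab (ρ.rs hA) :=
  fun _ hf => ρ.g_mem_ps hA.mul hA.stab hf

theorem τ_γ : ρ.τ (some ρ.γ) = 1 := by
  simp [τ, eB, ρ.hδ _ ρ.new]
theorem τ_mem : ρ.τ ∈ DS (insert ρ.γ ρ.B) :=
  sub_mem (eB_mem (Finset.mem_insert_self _ _)) (DS_mono (Finset.subset_insert _ _) ρ.hδ)

theorem degIn_rees : ρ.rees.DegIn (insert ρ.γ ρ.B) := by
  intro e he
  rw [eq_bot_iff]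
  intro f hf
  refine ρ.val_inj (ρ.ext_co fun k => ?_)
  have h1 := congrArg (fun f => ρ.co k (ρ.val f)) (mem_gr.1 hf)
  simp only [val_g, val_smul, co_g, co_c] at h1
  have h2 : ρ.co k (ρ.val f) ∈ M.gr (e - k • ρ.τ) := by
    rw [mem_gr, chi_sub, mul_comm, map_mul, mul_smul, ← h1, smul_smul, ← map_mul,
      inv_mul_cancel₀ (chi_ne _), map_one, one_smul]
  rw [ρ.deg _ fun h => he (by
    have := add_mem (DS_mono (Finset.subset_insert ρ.γ _) h) (nsmul_mem ρ.τ_mem k)
    rwa [sub_add_cancel] at this)] at h2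
  exact h2

end RD
end Crest.Agent.N265.V
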