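import Crest.Agent.N265.V.Rees

/-! # Row 265, layer V: Hilbert–Serre for submodules of the Rees module (helper94) -/

set_option autoImplicit false
noncomputable section
open MvPolynomial Module

namespace Crest.Agent.N265.V
open GM

/-- the underlying element of an element of a piece of a twist -/
def pv (S : Finset ℕ) (N : GM) (d : D) : (piece S (N.shift d)).M →+ N.M where
  toFun m := PieceT.val (B := S) (M := N.shift d) m
  map_zero' := rfl
  map_add' _ _ := rfl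
theorem pv_smul {S : Finset ℕ} {N : GM} {d : D} (r : R) (m : (piece S (N.shift d)).M) :
    pv S N d (r • m) = kill S r • pv S N d m := rfl
theorem pv_g {S : Finset ℕ} {N : GM} {d : D} (m : (piece S (N.shift d)).M) :
    pv S N d ((piece S (N.shift d)).g m) = (C (chi (-d)) : R) • N.g (pv S N d m) := rfl
theorem pv_eq_zero {S : Finset ℕ} {N : GM} {d : D} {m : (piece S (N.shift d)).M}
    (h : pv S N d m = 0) : m = 0 := PieceT.ext (B := S) (M := N.shift d) h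
theorem pv_mem {S : Finset ℕ} {N : GM} {d : D} {P : AddSubgroup N.M}
    (h : ∀ e ∈ DS S, ∀ x ∈ N.gr (e + d), x ∈ P) (m : (piece S (N.shift d)).M) : pv S N d m ∈ P := by
  have : pieceSub S (N.shift d) ≤ P := (AddSubgroup.closure_le _).2 <| by
    rintro x ⟨e, he, hx⟩
    rw [shift_gr] at hx
    exact h e he x hx
  exact this (Subtype.property m)
theorem pv_range {S : Finset ℕ} {N : GM} {d e : D} (he : e ∈ DS S) {x : N.M}
    (hx : x ∈ N.gr (e + d)) : x ∈ (pv S N d).range :=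
  ⟨(⟨x, AddSubgroup.subset_closure ⟨e, he, by rw [shift_gr]; exact hx⟩⟩ : pieceSub S (N.shift d)),
    rfl⟩
theorem shift_g {N : GM} {d : D} (m : N.M) :
    (N.shift d).g m = (C (chi (-d)) : R) • N.g m := rfl

namespace RD
variable {M : GM} (ρ : RD M) {A B : ℕ → Submodule R M.M}
  (hA : Sys M (sI ρ.s) A) (hB : Sys M (sI ρ.s) B)

/-- `⊕ A k / B k` -/
def gq : GM := sq ρ.rees (ρ.rs hA) (ρ.rs hB) (ρ.stab_rs hA) (ρ.stab_rs hB)
/-- the class of an element -/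
def cls : ρ.rs hA →ₗ[R] (ρ.gq hA hB).M := mkq (ρ.stab_rs hA) (ρ.stab_rs hB)
theorem g_cls (f : ρ.rs hA) :
    (ρ.gq hA hB).g (ρ.cls hA hB f) = ρ.cls hA hB ⟨ρ.rees.g f.1, ρ.stab_rs hA _ f.2⟩ := rfl
theorem cls_surj (m : (ρ.gq hA hB).M) : ∃ f, ρ.cls hA hB f = m := mkq_surj m
/-- `a T^k` -/
def el (k : ℕ) (a : A k) : ρ.rs hA :=
  ⟨⟨ρ.sg k a, ρ.sg_mem_ps _ (hA.le k a.2)⟩, ρ.sg_mem_ps hA.mul a.2⟩
/-- the coefficient of `T^k` -/
def cf (k : ℕ) : ρ.rs hA →+ A k where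
  toFun f := ⟨ρ.co k (ρ.val f.1), f.2 k⟩
  map_zero' := Subtype.ext (map_zero _)
  map_add' _ _ := Subtype.ext (map_add _ _ _)
theorem cf_el (k : ℕ) (a : A k) : ρ.cf hA k (ρ.el hA k a) = a := Subtype.ext (ρ.co_sg_self k a)
/-- the coefficient of `T^k` on the quotient -/
def cok (k : ℕ) : (ρ.gq hA hB).M →+ (sq M (A k) (B k) (hA.stab k) (hB.stab k)).M :=
  QuotientAddGroup.lift ((ρ.rs hB).submoduleOf (ρ.rs hA)).toAddSubgroup
    ((mkq (hA.stab k) (hB.stab k)).toAddMonoidHom.comp (ρ.cf hA k)) fun _ hf =>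
      mkq_eq_zero.2 (hf k)
theorem cok_mk (k : ℕ) (f : ρ.rs hA) :
    ρ.cok hA hB k (ρ.cls hA hB f) = mkq (hA.stab k) (hB.stab k) (ρ.cf hA k f) := rfl
theorem cok_kill (k : ℕ) (r : R) (m : (ρ.gq hA hB).M) :
    ρ.cok hA hB k (kill ρ.B r • m) = r • ρ.cok hA hB k m := by
  obtain ⟨f, rfl⟩ := ρ.cls_surj hA hB m
  rw [cok_mk, ← map_smul]
  exact congrArg (mkq (hA.stab k) (hB.stab k)) (Subtype.ext (ρ.co_kill r _ k))
theorem cok_c (k : ℕ) (c : ℂ) (m : (ρ.gq hA hB).M) :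
    ρ.cok hA hB k ((C c : R) • m) = (C c : R) • ρ.cok hA hB k m := by
  rw [← cok_kill]; simp [kill]
theorem cok_g (k : ℕ) (m : (ρ.gq hA hB).M) : ρ.cok hA hB k ((ρ.gq hA hB).g m) =
    (C (chi (k • ρ.τ)) : R) • (sq M (A k) (B k) (hA.stab k) (hB.stab k)).g (ρ.cok hA hB k m) := by
  obtain ⟨f, rfl⟩ := ρ.cls_surj hA hB m
  rw [cok_mk, g_mkq, ← map_smul]
  rfl
theorem eq_zero_of_cok {m : (ρ.gq hA hB).M} (h : ∀ k, ρ.cok hA hB k m = 0) : m = 0 := by
  obtain ⟨f, rfl⟩ := ρ.cls_surj hA hB m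
  exact mkq_eq_zero.2 fun k => mkq_eq_zero.1 (h k)
theorem cok_gr {e : D} {m : (ρ.gq hA hB).M} (h : m ∈ (ρ.gq hA hB).gr e) (k : ℕ) :
    ρ.cok hA hB k m ∈ (sq M (A k) (B k) (hA.stab k) (hB.stab k)).gr (e - k • ρ.τ) := by
  have h1 := congrArg (ρ.cok hA hB k) (mem_gr.1 h)
  rw [cok_g, cok_c] at h1
  rw [mem_gr, chi_sub, mul_comm, map_mul, mul_smul, ← h1, smul_smul, ← map_mul,
    inv_mul_cancel₀ (chi_ne _), map_one, one_smul]

/-- the graded piece of `T`-degree `k` -/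
theorem cl_piece (X : Spc) (k : ℕ) {e : D} (he : e ∈ DS ρ.B) :
    cl X (piece ρ.B ((ρ.gq hA hB).shift (k • ρ.τ + e))) =
      cl X ((sq M (A k) (B k) (hA.stab k) (hB.stab k)).shift e) := by
  let φ : (piece ρ.B ((ρ.gq hA hB).shift (k • ρ.τ + e))).M →ₗ[R]
      ((sq M (A k) (B k) (hA.stab k) (hB.stab k)).shift e).M :=
    { toFun := fun m => ρ.cok hA hB k (pv _ _ _ m)
      map_add' := fun a b => by rw [map_add, map_add]; rfl
      map_smul' := fun r m => by rw [pv_smul, cok_kill]; rfl }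
  have hφ : ∀ m, φ m = ρ.cok hA hB k (pv _ _ _ m) := fun _ => rfl
  refine cl_bij φ (fun m => ?_) ⟨?_, fun q => ?_⟩
  · rw [hφ, hφ, pv_g, shift_g, cok_c, cok_g, smul_smul, ← map_mul, ← chi_add,
      show -(k • ρ.τ + e) + k • ρ.τ = -e by abel]
  · rw [injective_iff_map_eq_zero]
    intro m hm
    refine pv_eq_zero (ρ.eq_zero_of_cok hA hB fun j => ?_)
    by_cases hj : j = k
    · subst hj; exact hm
    refine pv_mem (P := (ρ.cok hA hB j).ker) (fun d hd x hx => ?_) m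
    have h1 := ρ.cok_gr hA hB hx j
    rwa [degIn_sq ρ.deg _ fun h => hj (by
      have h2 := h _ ρ.new
      simp only [Finsupp.coe_sub, Finsupp.coe_add, Finsupp.coe_smul, Pi.sub_apply,
        Pi.add_apply, Pi.smul_apply, ρ.τ_γ, hd _ ρ.new, he _ ρ.new] at h2
      simp at h2
      omega)] at h1
  · obtain ⟨⟨a, ha⟩, rfl⟩ := mkq_surj (hA := hA.stab k) (hB := hB.stab k) q
    have h0 : ∀ ha, ρ.cls hA hB (ρ.el hA k ⟨0, ha⟩) = 0 := fun ha => by
      have : ρ.el hA k ⟨0, ha⟩ = 0 := Subtype.ext (ρ.val_inj (map_zero (ρ.sg k)))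
      rw [this, map_zero]
    have key : ∀ a ∈ A k, ∀ ha : a ∈ A k, ρ.cls hA hB (ρ.el hA k ⟨a, ha⟩) ∈
        (pv ρ.B (ρ.gq hA hB) (k • ρ.τ + e)).range := by
      refine stab_induction (hA.stab k) (fun ha => ?_) (fun x hx y hy h1 h2 ha => ?_)
        fun d x hx _ ha => ?_
      · rw [h0]; exact zero_mem _
      · have : ρ.el hA k ⟨x + y, ha⟩ = ρ.el hA k ⟨x, hx⟩ + ρ.el hA k ⟨y, hy⟩ :=
          Subtype.ext (ρ.val_inj (map_add (ρ.sg k) x y))
        rw [this, map_add]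
        exact add_mem (h1 hx) (h2 hy)
      · by_cases hd : d ∈ DS ρ.B
        · refine pv_range (sub_mem hd he) ?_
          rw [show d - e + (k • ρ.τ + e) = d + k • ρ.τ by abel]
          rw [mem_gr, g_cls, ← map_smul]
          exact congrArg _ (Subtype.ext (ρ.val_inj (ρ.g_sg hx k)))
        · rw [ρ.deg d hd] at hx
          obtain rfl : x = 0 := hx
          rw [h0]; exact zero_mem _
    obtain ⟨m, hm⟩ := key a ha ha
    exact ⟨m, by rw [hφ, hm, cok_mk, cf_el]⟩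

theorem kill_of {z : Pt} {r : R} (hr : eval z r ≠ 0) (h : ∀ (f : ρ.PM) k, ρ.co k (r • f) = 0) :
    (ρ.gq hA hB).Kill z :=
  kill_sq.2 ⟨r, hr, fun f _ => (ρ.mem_rs hB).2 fun k => by rw [val_smul, h]; exact zero_mem _⟩
theorem kill_X {z : Pt} {v : Var} (hv : z v ≠ 0) (h1 : v.1 ∉ ρ.B) (h2 : v ∉ Set.range ρ.y) :
    (ρ.gq hA hB).Kill z :=
  ρ.kill_of hA hB (r := X v) (by simpa using hv) fun f k => by rw [ρ.co_X h2, ρ.deg.X_smul h1]
theorem kill_sup {z : Pt}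
    (h : ∀ k, ∃ r : R, eval (restr ρ.B z) r ≠ 0 ∧ ∀ a ∈ A k, r • a ∈ B k) : (ρ.gq hA hB).Kill z := by
  choose r hr hr' using h
  refine kill_iff.2 fun m => ?_
  obtain ⟨f, rfl⟩ := ρ.cls_surj hA hB m
  obtain ⟨S, hS'⟩ := ρ.exists_supp (ρ.val f.1)
  refine ⟨kill ρ.B (∏ k ∈ S, r k), ?_, ρ.eq_zero_of_cok hA hB fun k => ?_⟩
  · rw [eval_kill, map_prod]
    exact Finset.prod_ne_zero_iff.2 fun k _ => hr k
  · rw [cok_kill, cok_mk, ← map_smul, mkq_eq_zero]
    change _ • ρ.co k (ρ.val f.1) ∈ _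
    by_cases hk : k ∈ S
    · rw [← Finset.prod_erase_mul _ _ hk, mul_smul]
      exact Submodule.smul_mem _ _ (hr' k _ (f.2 k))
    · rw [hS' k hk, smul_zero]; exact zero_mem _
theorem kill_syz {z : Pt} (μ : ρ.ι → R) (h1 : ∑ i, eval (restr ρ.B z) (μ i) * z (ρ.y i) ≠ 0)
    (h2 : ∀ m : M.M, (∑ i, μ i * ρ.s i) • m = 0) : (ρ.gq hA hB).Kill z := by
  refine ρ.kill_of hA hB (r := ∑ i, kill ρ.B (μ i) * X (ρ.y i)) ?_ fun f k => ?_
  · simpa only [map_sum, map_mul, eval_kill, eval_X] using h1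
  · rw [Finset.sum_smul, map_sum]
    cases k with
    | zero => exact Finset.sum_eq_zero fun i _ => by rw [mul_smul, co_kill, co_y_zero, smul_zero]
    | succ k =>
      rw [← h2 (ρ.co k f), Finset.sum_smul]
      exact Finset.sum_congr rfl fun i _ => by rw [mul_smul, mul_smul, co_kill, co_y_succ]
end RD

variable {W X P : Spc} {M : GM}

/-- Rees data of a section of a uniform bundle -/
def rdOf {E : Bun X} {s : E.ι → R} (hh : ∀ i, Hmg (E.deg i) (s i)) {δ : D} {b : ℕ}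
    {y : E.ι → Var} (h : PVar E δ b y) (hM : M.DegIn X.B) : RD M where
  B := X.B
  γ := b
  new := h.new
  deg := hM
  ι := E.ι
  s := s
  d := E.deg
  hs := hh
  y := y
  yinj := h.inj
  blk := h.blk
  δ := δ
  hδ := h.hδ
  hy := fun i => by rw [vdeg, h.blk, h.deg]; abel

theorem on_gq {E : Bun X} {s : E.ι → R} (h : Syz W X E s) {δ : D} {b : ℕ} {y : E.ι → Var}
    (hP : IsPSub P E δ b y) (hM : M.Red W) {A B : ℕ → Submodule R M.M} (hA : Sys M (sI s) A)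
    (hB : Sys M (sI s) B) (hS : ∀ k, Sup X M (A k) (B k)) :
    ((rdOf h.hmg hP.toPVar (h.sub.1 ▸ hM.deg)).gq hA hB).On P := by
  set ρ := rdOf h.hmg hP.toPVar (h.sub.1 ▸ hM.deg : M.DegIn X.B)
  refine ⟨hP.B ▸ degIn_sq ρ.degIn_rees, fun z hz hn => ?_⟩
  by_cases h4 : ∀ v, z v ≠ 0 → v.1 ∈ X.B ∨ v ∈ Set.range y
  swap
  · push Not at h4
    obtain ⟨v, hv, h1, h2⟩ := h4
    exact ρ.kill_X hA hB hv h1 h2
  have h3 : (fun i => z (y i)) ≠ 0 := by
    obtain ⟨v, hv, hv'⟩ := hz b (hP.B ▸ Finset.mem_insert_self _ _)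
    obtain ⟨i, rfl⟩ := (h4 v hv').resolve_left (hv ▸ hP.new)
    exact fun h0 => hv' (congrFun h0 i)
  by_cases h1 : restr X.B z ∈ X.pts
  swap
  · have hr : Rel X.B (restr X.B z) :=
      (rel_restr subset_rfl).2 fun c hc => hz c (hP.B ▸ Finset.mem_insert_of_mem hc)
    exact ρ.kill_sup hA hB fun k => hS k _ hr h1
  have h2 : (fun i => z (y i)) ∉ E.L (restr X.B z) := fun h2 => hn ((hP.mem z).2 ⟨h1, h2, h3, h4⟩)
  rw [← perp_perp (E.L _), mem_perp] at h2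
  push Not at h2
  obtain ⟨a, ha, ha'⟩ := h2
  obtain ⟨μ, hμ, hμ'⟩ := h.syz _ h1 a ha
  refine ρ.kill_syz hA hB μ ?_ (hM.ann _ hμ')
  change ∑ i, eval (restr X.B z) (μ i) * z (y i) ≠ 0
  simpa only [hμ, mul_comm] using ha'

theorem lam_root {E : Bun X} {δ : D} {b : ℕ} {y : E.ι → Var} (hP : IsPSub P E δ b y) {r : ℕ}
    (hr : E.Rk r) : (Lam E).eval₂ (Op.pull hP.proj) (lb P (δ - eB b)) = 0 := by
  have h := hP.chp_root hr
  rw [chp_eq hr, Polynomial.eval₂_mul, Polynomial.eval₂_C] at h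
  have hu : IsUnit ((-1) ^ r * op X (E.det r hr).kl) :=
    (isUnit_one.neg.pow r).mul (isUnit_det hr)
  exact (hu.map (Op.pull hP.proj)).mul_right_eq_zero.1 h

theorem Syz.tame_unif {E : Bun X} {s : E.ι → R} (h : Syz W X E s) {r : ℕ} (hr : E.Rk r) {δ : D}
    (hδ : δ ∈ DS X.B) (hu : E.Unif δ) (hM : M.Red W) {A B : ℕ → Submodule R M.M}
    (hA : Sys M (sI s) A) (hB : Sys M (sI s) B) (hS : ∀ k, Sup X M (A k) (B k)) :
    Tame (Lam E) (zs fun k => cq X M (A k) (B k)) := by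
  obtain ⟨b, hb⟩ := Infinite.exists_notMem_finset X.B
  obtain ⟨y, hy⟩ := exists_pvar hδ hu hb
  obtain ⟨P, hP⟩ := hy.exists_psub
  have hd : M.DegIn X.B := h.sub.1 ▸ hM.deg
  have hG := on_gq h hP hM hA hB hS
  set ρ := rdOf h.hmg hP.toPVar hd
  obtain ⟨k₁, hk₁⟩ := (isPush hP.proj).big _ hG
  have hbP : b ∈ P.B := hP.B ▸ Finset.mem_insert_self _ _
  have key : ∀ k : ℕ, k₁.toNat ≤ k → zs (fun k => cq X M (A k) (B k)) k =
      push P X (lb P (eB b - δ) ^ k • cl P (ρ.gq hA hB)) := by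
    intro k hk
    have h1 : Big P X k₁ (k • eB b) := by
      refine ⟨by simp [eB], fun c hc => ?_, fun c hc hc' => ?_⟩
      · have : c ≠ b := by
          rintro rfl
          exact hc.elim hb fun h => h hbP
        simp [eB, this.symm]
      · rw [hP.B, Finset.mem_insert] at hc
        obtain rfl := hc.resolve_right hc'
        simp only [eB, Finsupp.coe_smul, Pi.smul_apply, Finsupp.single_eq_same, nsmul_eq_mul,
          mul_one]
        omega
    have h2 := hk₁ _ h1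
    have h3 := ρ.cl_piece hA hB X k (nsmul_mem hδ k)
    have h4 : k • ρ.τ + k • δ = k • eB b := by
      change k • (eB b - δ) + k • δ = _
      rw [smul_sub, sub_add_cancel]
    rw [h4] at h3
    have h5 : (sq M (A k) (B k) (hA.stab k) (hB.stab k)).On X := on_sq hd (hS k)
    have h6 : lb P (eB b - δ) ^ k = Op.pull hP.proj (lb X (-(k • δ))) * lb P (k • eB b) := by
      rw [Op.pull_lb _ (neg_mem (nsmul_mem hδ k)), ← lb_add, ← lb_nsmul, smul_sub]
      congr 1; abel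
    rw [zs_natCast, h6, mul_smul, push_smul, lb_smul (nsmul_mem (eB_mem hbP) k),
      sh_cl (nsmul_mem (eB_mem hbP) k) hG, h2]
    erw [h3]
    rw [← sh_cl (nsmul_mem hδ k) h5, ← lb_smul (nsmul_mem hδ k), smul_smul, ← lb_add,
      neg_add_cancel, lb_zero, one_smul, cq_eq]
  refine tame_zs (k₀ := (k₁.toNat + (Lam E).natDegree : ℕ)) fun k hk => ?_
  obtain ⟨k, rfl⟩ := Int.eq_ofNat_of_zero_le ((Int.natCast_nonneg _).trans hk)
  rw [app_geom (Op.pull hP.proj) (push P X) (push_smul hP.proj) (Lam E) (lb P (eB b - δ))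
    (lb P (δ - eB b)) (by rw [← lb_add, sub_add_sub_cancel, sub_self, lb_zero]) _ key
    (by exact_mod_cast hk), lam_root hP hr, mul_zero, zero_smul, map_zero]

theorem Syz.tame {E : Bun X} {s : E.ι → R} (h : Syz W X E s) {r : ℕ} (hr : E.Rk r) (hM : M.Red W)
    {A B : ℕ → Submodule R M.M} (hA : Sys M (sI s) A) (hB : Sys M (sI s) B)
    (hS : ∀ k, Sup X M (A k) (B k)) : Tame (Lam E) (zs fun k => cq X M (A k) (B k)) := by
  obtain ⟨E', s', δ, hδ, hu, h', hk, hf, hle, hloc⟩ := h.exists_unif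
  obtain ⟨A', B', hA', hB', hS', he⟩ := sys_change h.sub hM (gam_span h'.hmg) hle hloc hA hB hS
  have := h'.tame_unif (r := r) (fun x hx => (hf x hx).trans (hr x hx)) hδ hu hM hA' hB' hS'
  simpa only [he, Lam_congr hk] using this

end Crest.Agent.N265.V
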